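import Vale.Agent.P012.Full.Freq
import Mathlib.Data.Fintype.Pigeonhole
import Mathlib.Data.Nat.Factorial.Basic
import Mathlib.RingTheory.Int.Basic
import Mathlib.Algebra.BigOperators.Ring.List

namespace Vale.Agent.P012.Full

open Finset

lemma sum_inv_cube_le (s : ℕ) : ∑ n ∈ Finset.Icc 1 s, (1 : ℝ) / (n : ℝ) ^ 3 ≤ 2 := by
  have key : ∀ s : ℕ, 1 ≤ s → ∑ n ∈ Finset.Icc 1 s, (1 : ℝ) / (n : ℝ) ^ 3 ≤ 2 - 1 / (s : ℝ) := by
    intro s hs
    induction s, hs using Nat.le_induction with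
    | base => norm_num
    | succ s hs ih =>
      rw [Finset.sum_Icc_succ_top (by omega)]
      have h1 : (1 : ℝ) ≤ (s : ℝ) := by exact_mod_cast hs
      have h2 : 1 / ((s + 1 : ℕ) : ℝ) ^ 3 ≤ 1 / (s : ℝ) - 1 / ((s + 1 : ℕ) : ℝ) := by
        push_cast
        rw [div_sub_div _ _ (by linarith) (by linarith),
          div_le_div_iff₀ (by positivity) (by positivity)]
        nlinarith [mul_nonneg (sq_nonneg (s : ℝ)) (by linarith : (0 : ℝ) ≤ s), sq_nonneg (s : ℝ)]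
      linarith
  rcases Nat.eq_zero_or_pos s with rfl | hs
  · simp
  · have : 0 ≤ 1 / (s : ℝ) := by positivity
    linarith [key s hs]

/-- Thue's lemma, in reduced form. -/
lemma thue {N h : ℕ} (hN : N.Prime) (h1 : 1 ≤ h) (h2 : h < N) :
    ∃ (q : ℕ) (a s : ℤ), 1 ≤ q ∧ 1 ≤ s.natAbs ∧ q * q ≤ N ∧ s.natAbs * s.natAbs ≤ N ∧
      (h : ℤ) * q = a * N + s ∧ IsCoprime a (q : ℤ) := by
  have : NeZero N := ⟨hN.ne_zero⟩
  set w := Nat.sqrt N with hw
  have hww : w * w ≤ N := Nat.sqrt_le N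
  have hw1 : N < (w + 1) * (w + 1) := Nat.lt_succ_sqrt N
  obtain ⟨x, y, hne, heq⟩ := Fintype.exists_ne_map_eq_of_card_lt
    (fun p : Fin (w + 1) × Fin (w + 1) =>
      ((⟨(((h : ℤ) * (p.1 : ℕ) - (p.2 : ℕ)) % (N : ℤ)).toNat, by
        have h1 := Int.emod_lt_of_pos ((h : ℤ) * (p.1 : ℕ) - (p.2 : ℕ)) (show (0 : ℤ) < N by exact_mod_cast hN.pos)
        omega⟩ : Fin N))) (by simpa using hw1)
  have hmod : (N : ℤ) ∣ (h : ℤ) * ((x.1 : ℕ) - (y.1 : ℕ) : ℤ) - ((x.2 : ℕ) - (y.2 : ℕ) : ℤ) := by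
    have hx := Int.emod_nonneg ((h : ℤ) * (x.1 : ℕ) - (x.2 : ℕ)) (show (N : ℤ) ≠ 0 by exact_mod_cast hN.ne_zero)
    have hy := Int.emod_nonneg ((h : ℤ) * (y.1 : ℕ) - (y.2 : ℕ)) (show (N : ℤ) ≠ 0 by exact_mod_cast hN.ne_zero)
    have he := congrArg Fin.val heq
    simp only at he
    have he' : ((h : ℤ) * (x.1 : ℕ) - (x.2 : ℕ)) % (N : ℤ) = ((h : ℤ) * (y.1 : ℕ) - (y.2 : ℕ)) % (N : ℤ) := by
      omega
    have := Int.ModEq.dvd (show Int.ModEq (N : ℤ) _ _ from he'.symm)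
    convert this using 1; ring
  set d1 : ℤ := ((x.1 : ℕ) - (y.1 : ℕ) : ℤ) with hd1
  set d2 : ℤ := ((x.2 : ℕ) - (y.2 : ℕ) : ℤ) with hd2
  have hb1 : d1.natAbs ≤ w := by have := x.1.isLt; have := y.1.isLt; omega
  have hb2 : d2.natAbs ≤ w := by have := x.2.isLt; have := y.2.isLt; omega
  have hwN : w < N := Nat.sqrt_lt_self hN.one_lt
  have hd1ne : d1 ≠ 0 := by
    intro h0
    rw [h0, mul_zero, zero_sub, dvd_neg] at hmod
    have h02 : d2 = 0 := Int.eq_zero_of_dvd_of_natAbs_lt_natAbs hmod (by simpa using lt_of_le_of_lt hb2 hwN)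
    apply hne
    exact Prod.ext (Fin.ext (by omega)) (Fin.ext (by omega))
  obtain ⟨a0, ha0⟩ := hmod
  -- make the multiplier positive
  obtain ⟨q, a1, s1, hq, hqw, hsw, heq1⟩ : ∃ (q : ℕ) (a s : ℤ), 1 ≤ q ∧ q ≤ w ∧ s.natAbs ≤ w ∧
      (h : ℤ) * q = a * N + s := by
    rcases le_or_gt 0 d1 with h0 | h0
    · exact ⟨d1.natAbs, a0, d2, Int.natAbs_pos.2 hd1ne, hb1, hb2, by
        rw [Int.natAbs_of_nonneg h0]; linarith⟩
    · exact ⟨d1.natAbs, -a0, -d2, Int.natAbs_pos.2 hd1ne, hb1, by simpa using hb2, by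
        rw [show (d1.natAbs : ℤ) = -d1 by omega]; linarith⟩
  have hs1 : s1 ≠ 0 := by
    intro h0
    rw [h0, add_zero] at heq1
    have h3 : N ∣ h * q := by
      exact_mod_cast (Dvd.intro_left a1 heq1.symm : (N : ℤ) ∣ ((h : ℤ) * q))
    rcases hN.dvd_mul.1 h3 with h4 | h4
    · have := Nat.le_of_dvd (by omega) h4; omega
    · have := Nat.le_of_dvd (by omega) h4; omega
  set g := Int.gcd a1 (q : ℤ) with hg
  have hg0 : 0 < g := Int.gcd_pos_of_ne_zero_right _ (by exact_mod_cast (by omega : q ≠ 0))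
  obtain ⟨a, ha⟩ := Int.gcd_dvd_left a1 (q : ℤ)
  obtain ⟨q', hq'⟩ : g ∣ q := by exact_mod_cast Int.gcd_dvd_right a1 (q : ℤ)
  rw [← hg] at ha
  have hdvd : (g : ℤ) ∣ s1 := by
    refine ⟨(h : ℤ) * q' - a * N, ?_⟩
    have : (q : ℤ) = (g : ℤ) * q' := by exact_mod_cast hq'
    rw [this, ha] at heq1; linarith
  obtain ⟨s, hs⟩ := hdvd
  have hq'0 : 0 < q' := Nat.pos_of_ne_zero fun h0 => by subst h0; simp at hq'; omega
  have hs0 : s ≠ 0 := fun h0 => hs1 (by rw [hs, h0, mul_zero])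
  have hq'le : q' ≤ w := le_trans (by rw [hq']; exact Nat.le_mul_of_pos_left _ hg0) hqw
  have hsle : s.natAbs ≤ w := by
    refine le_trans ?_ hsw
    rw [hs, Int.natAbs_mul, Int.natAbs_natCast]; exact Nat.le_mul_of_pos_left _ hg0
  refine ⟨q', a, s, hq'0, Int.natAbs_pos.2 hs0, (Nat.mul_le_mul hq'le hq'le).trans hww,
    (Nat.mul_le_mul hsle hsle).trans hww, ?_, ?_⟩
  · refine mul_left_cancel₀ (show (g : ℤ) ≠ 0 by exact_mod_cast hg0.ne') ?_
    have : (q : ℤ) = (g : ℤ) * q' := by exact_mod_cast hq'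
    rw [this, ha, hs] at heq1; linarith
  · rw [Int.isCoprime_iff_gcd_eq_one]
    have h5 : g = g * Int.gcd a (q' : ℤ) := by
      conv_lhs => rw [hg, ha, show (q : ℤ) = (g : ℤ) * q' by exact_mod_cast hq']
      rw [Int.gcd_mul_left, Int.natAbs_natCast]
    exact (Nat.eq_of_mul_eq_mul_left hg0 (by omega : g * 1 = g * Int.gcd a (q' : ℤ))).symm

/-- Every residue class modulo `N` is a sum of few products of multipliers and pool elements. -/
theorem residues {U : Finset ℕ} {e e1 L n Y0 gb N R : ℕ} {l : List (ℕ × ℕ)}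
    (hp : GoodPool U e e1 L n Y0 l) (hpar : Params e L n Y0 gb N) (hR : R = 144000) (hN : N.Prime) :
    ∃ z : Fin R → ℕ, (∀ c, 0 < z c ∧ z c < 2 * Y0 ^ 2) ∧ ∀ x : ℕ,
      ∃ t : Fin R × Fin (2 * 2 ^ L) → ℕ, (∀ p, t p ∈ prods l) ∧
        (∑ p, z p.1 * t p) % N = x % N := by
  classical
  set r := 2 ^ L with hr
  set Z := Y0 ^ 2 with hZ
  have hY0 : 0 < Y0 := by
    rcases Nat.eq_zero_or_pos Y0 with h | h
    · have := hpar.Ybig; rw [h] at this
      have : 0 < 16 * 2 ^ (2 * L) * 2 ^ gb := by positivity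
      omega
    · exact h
  have hZ0 : 0 < Z := by positivity
  set T : ℕ → ℕ → ℝ := fun i h =>
    (‖expS (prods l) (((Z + i : ℕ) : ℝ) * ((h : ℝ) / N))‖ / (2 : ℝ) ^ n) ^ (2 * r) with hT
  -- the total over all frequencies is small
  have hfreq : ∑ h ∈ Finset.Ico 1 N, mom l n r Y0 ((h : ℝ) / N) ^ R < 1 := by
    have hc : ∀ h ∈ Finset.Ico 1 N, ∃ (qms : ℕ × ℕ × Bool) (a : ℤ),
        1 ≤ qms.1 ∧ 1 ≤ qms.2.1 ∧ qms.1 * qms.1 ≤ N ∧ qms.2.1 * qms.2.1 ≤ N ∧
        (h : ℤ) * qms.1 = a * N + (if qms.2.2 then (qms.2.1 : ℤ) else -(qms.2.1 : ℤ)) ∧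
        mom l n r Y0 ((h : ℝ) / N) ^ R ≤ 1 / (((qms.1 * (qms.2.1 * 2 ^ gb) : ℕ) : ℝ)) ^ 3 := by
      intro h hh
      rw [Finset.mem_Ico] at hh
      obtain ⟨q, a, s, hq, hs, hqN, hsN, heq, hcop⟩ := thue hN hh.1 hh.2
      refine ⟨(q, s.natAbs, decide (0 ≤ s)), a, hq, hs, hqN, hsN, ?_,
        freq_bound hp hpar hR heq rfl hs hq hqN hsN hcop⟩
      rcases le_or_gt 0 s with h0 | h0
      · simp [h0, abs_of_nonneg h0, heq]
      · simp [not_le.2 h0, abs_of_neg h0, heq]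
    choose! f fa hf using hc
    refine lt_of_le_of_lt (Finset.sum_le_sum fun h hh => (hf h hh).2.2.2.2.2) ?_
    have hinj : Set.InjOn f ↑(Finset.Ico 1 N) := by
      intro h1 hh1 h2 hh2 heq
      rw [Finset.mem_coe] at hh1 hh2
      obtain ⟨hq1, -, hqN, -, e1', -⟩ := hf h1 hh1
      obtain ⟨-, -, -, -, e2', -⟩ := hf h2 hh2
      rw [← heq] at e2'
      have hd : (N : ℤ) ∣ ((h1 : ℤ) - h2) * (f h1).1 := ⟨fa h1 - fa h2, by linarith⟩
      have hqlt : (f h1).1 < N := by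
        by_contra hc'
        push Not at hc'
        have h6 := Nat.mul_le_mul hc' hc'
        have h7 := hN.two_le
        nlinarith
      rcases (Nat.prime_iff_prime_int.1 hN).dvd_mul.1 hd with h3 | h3
      · rw [Finset.mem_Ico] at hh1 hh2
        have := Int.eq_zero_of_dvd_of_natAbs_lt_natAbs h3 (by omega)
        omega
      · have := Nat.le_of_dvd (by omega) (Int.natCast_dvd_natCast.1 h3); omega
    set w := Nat.sqrt N
    have hmaps : ∀ h ∈ Finset.Ico 1 N, f h ∈ Finset.Icc 1 w ×ˢ (Finset.Icc 1 w ×ˢ (Finset.univ : Finset Bool)) := by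
      intro h hh
      obtain ⟨a1, a2, a3, a4, -, -⟩ := hf h hh
      simp [Finset.mem_product, a1, a2, Nat.le_sqrt.2 a3, Nat.le_sqrt.2 a4, w]
    rw [← Finset.sum_image (f := fun v : ℕ × ℕ × Bool => 1 / (((v.1 * (v.2.1 * 2 ^ gb) : ℕ) : ℝ)) ^ 3) hinj]
    refine lt_of_le_of_lt (Finset.sum_le_sum_of_subset_of_nonneg
      (fun v hv => by obtain ⟨h, hh, rfl⟩ := Finset.mem_image.1 hv; exact hmaps h hh)
      (fun _ _ _ => by positivity)) ?_
    have hG : (16 : ℝ) ≤ ((2 : ℝ) ^ gb) ^ 3 := by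
      have h4 : 4 ≤ gb := by have := hpar.gbig; omega
      calc (16 : ℝ) = 2 ^ 4 := by norm_num
        _ ≤ 2 ^ gb := pow_le_pow_right₀ (by norm_num) h4
        _ ≤ _ := le_self_pow₀ (one_le_pow₀ (by norm_num)) (by norm_num)
    have hS := sum_inv_cube_le w
    have hS0 : 0 ≤ ∑ q ∈ Finset.Icc 1 w, (1 : ℝ) / (q : ℝ) ^ 3 := by positivity
    calc ∑ v ∈ Finset.Icc 1 w ×ˢ (Finset.Icc 1 w ×ˢ (Finset.univ : Finset Bool)),
          (1 : ℝ) / (((v.1 * (v.2.1 * 2 ^ gb) : ℕ) : ℝ)) ^ 3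
        = 2 * (∑ q ∈ Finset.Icc 1 w, (1 : ℝ) / (q : ℝ) ^ 3) ^ 2 / ((2 : ℝ) ^ gb) ^ 3 := by
          simp only [Finset.sum_product, Finset.sum_const, Finset.card_univ, Fintype.card_bool, nsmul_eq_mul]
          rw [sq, Finset.sum_mul_sum, Finset.mul_sum, Finset.sum_div]
          refine Finset.sum_congr rfl fun q _ => ?_
          rw [Finset.mul_sum, Finset.sum_div]
          refine Finset.sum_congr rfl fun m _ => ?_
          push_cast
          ring
      _ ≤ 2 * 2 ^ 2 / 16 := by gcongr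
      _ < 1 := by norm_num
  -- choose the multipliers
  obtain ⟨z, hz, hzsmall⟩ : ∃ z ∈ Fintype.piFinset (fun _ : Fin R => Finset.range Z),
      ∑ h ∈ Finset.Ico 1 N, ∏ c, T (z c) h < 1 := by
    by_contra hcon
    push Not at hcon
    have h1 := Finset.card_nsmul_le_sum _ _ _ hcon
    rw [Fintype.card_piFinset, Finset.prod_const, Finset.card_range, Finset.card_univ, Fintype.card_fin,
      Finset.sum_comm, nsmul_eq_mul, mul_one] at h1
    have hprod : ∀ h : ℕ, ∑ v ∈ Fintype.piFinset (fun _ : Fin R => Finset.range Z), ∏ c, T (v c) h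
        = (∑ i ∈ Finset.range Z, T i h) ^ R := by
      intro h
      rw [← Finset.prod_univ_sum (fun _ : Fin R => Finset.range Z) (fun _ i => T i h), Finset.prod_const,
        Finset.card_univ, Fintype.card_fin]
    simp only [hprod] at h1
    have h2 : ∀ h : ℕ, ∑ i ∈ Finset.range Z, T i h = (Z : ℝ) * mom l n r Y0 ((h : ℝ) / N) := by
      intro h
      rw [mom, ← hZ, mul_div_cancel₀ _ (show (Z : ℝ) ≠ 0 by exact_mod_cast hZ0.ne')]
    simp only [h2, mul_pow, ← Finset.mul_sum] at h1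
    have : (0 : ℝ) < (Z : ℝ) ^ R := by positivity
    push_cast at h1
    nlinarith
  rw [Fintype.mem_piFinset] at hz
  refine ⟨fun c => Z + z c, fun c => ?_, fun x => ?_⟩
  · have := Finset.mem_range.1 (hz c)
    dsimp only
    constructor <;> omega
  by_contra hcon
  push Not at hcon
  have hzero : ∑ h ∈ Finset.range N, ef (-((h : ℝ) * x / N)) *
      ∏ p : Fin R × Fin (2 * r), expS (prods l) (((Z + z p.1 : ℕ) : ℝ) * ((h : ℝ) / N)) = 0 := by
    simp only [expS, Finset.prod_univ_sum, Finset.mul_sum]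
    rw [Finset.sum_comm]
    refine Finset.sum_eq_zero fun t ht => ?_
    rw [Fintype.mem_piFinset] at ht
    set v : ℤ := ((∑ p, (Z + z p.1) * t p : ℕ) : ℤ) - (x : ℤ) with hv
    have e : ∀ h : ℕ, ef (-((h : ℝ) * x / N)) *
        ∏ p, ef ((t p : ℝ) * (((Z + z p.1 : ℕ) : ℝ) * ((h : ℝ) / N))) = ef ((h : ℝ) * (v : ℝ) / N) := by
      intro h
      rw [← ef_sum, ← ef_add]
      congr 1
      rw [hv]
      push_cast
      rw [mul_sub, sub_div, Finset.mul_sum, Finset.sum_div, neg_add_eq_sub]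
      refine congrArg (fun u => u - _) (Finset.sum_congr rfl fun p _ => ?_)
      ring
    rw [Finset.sum_congr rfl fun h _ => e h, sum_ef_div hN.pos, if_neg]
    intro hd
    apply hcon t ht
    have := (Int.modEq_iff_dvd.2 hd).symm
    exact_mod_cast this
  rw [Finset.range_eq_Ico, Finset.sum_eq_sum_Ico_succ_bot hN.pos] at hzero
  simp only [Nat.cast_zero, zero_mul, zero_div, neg_zero, ef_zero, one_mul, mul_zero, zero_add] at hzero
  have hexp0 : expS (prods l) 0 = (((2 : ℝ) ^ n : ℝ) : ℂ) := by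
    simp [expS, ef_zero, card_prods hp.prime hp.valid, hp.len]
  rw [hexp0, Finset.prod_const] at hzero
  set J := (Finset.univ : Finset (Fin R × Fin (2 * r))).card
  have hmain : ((2 : ℝ) ^ n) ^ J ≤ ∑ h ∈ Finset.Ico 1 N,
      ∏ p : Fin R × Fin (2 * r), ‖expS (prods l) (((Z + z p.1 : ℕ) : ℝ) * ((h : ℝ) / N))‖ := by
    have h1 : ‖((((2 : ℝ) ^ n : ℝ) : ℂ)) ^ J‖ = ((2 : ℝ) ^ n) ^ J := by
      rw [norm_pow, Complex.norm_real, Real.norm_of_nonneg (by positivity)]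
    rw [eq_neg_of_add_eq_zero_left hzero, norm_neg] at h1
    rw [← h1]
    refine (norm_sum_le _ _).trans_eq (Finset.sum_congr rfl fun h _ => ?_)
    rw [norm_mul, norm_ef, one_mul, norm_prod]
  have hconv : ∀ h : ℕ, ∏ p : Fin R × Fin (2 * r), ‖expS (prods l) (((Z + z p.1 : ℕ) : ℝ) * ((h : ℝ) / N))‖
      = ((2 : ℝ) ^ n) ^ J * ∏ c, T (z c) h := by
    intro h
    simp only [hT]
    rw [Fintype.prod_prod_type]
    simp only [Finset.prod_const, Finset.card_univ, Fintype.card_fin, div_pow]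
    rw [Finset.prod_div_distrib, Finset.prod_const, Finset.card_univ, Fintype.card_fin,
      show J = 2 * r * R by simp [J, mul_comm], pow_mul _ (2 * r) R, mul_div_cancel₀ _ (by positivity)]
  simp only [hconv, ← Finset.mul_sum] at hmain
  have : (0 : ℝ) < ((2 : ℝ) ^ n) ^ J := by positivity
  nlinarith

/-- `Cover M V k`: every integer in `[V, 4V)` is a sum of at most `k` divisors of `M`. -/
def Cover (M V k : ℕ) : Prop :=
  ∀ x, V ≤ x → x < 4 * V → ∃ F : List ℕ, F.length ≤ k ∧ (∀ d ∈ F, d ∣ M) ∧ F.sum = x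

lemma digits_rep (b : ℕ) : ∀ D i, i < (2 ^ b) ^ D →
    ∃ F : List ℕ, F.length ≤ D ∧ (∀ d ∈ F, d ∣ (2 ^ b) ^ D * (2 ^ b).factorial) ∧ F.sum = i := by
  intro D
  induction D with
  | zero => intro i hi; exact ⟨[], le_rfl, by simp, by simp at hi; simp [hi]⟩
  | succ D ih =>
    intro i hi
    obtain ⟨F, hl, hd, hs⟩ := ih (i % (2 ^ b) ^ D) (Nat.mod_lt _ (by positivity))
    have hup : ∀ d ∈ F, d ∣ (2 ^ b) ^ (D + 1) * (2 ^ b).factorial := fun d hd' =>
      (hd d hd').trans (Nat.mul_dvd_mul_right (pow_dvd_pow _ (Nat.le_succ D)) _)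
    have hdm := Nat.div_add_mod i ((2 ^ b) ^ D)
    set c := i / (2 ^ b) ^ D with hc
    have hclt : c < 2 ^ b := by
      rw [hc, Nat.div_lt_iff_lt_mul (by positivity), ← pow_succ']; exact hi
    rcases Nat.eq_zero_or_pos c with h0 | h0
    · exact ⟨F, by omega, hup, by rw [hs]; rw [h0, mul_zero] at hdm; omega⟩
    · refine ⟨(2 ^ b) ^ D * c :: F, by simp; omega, ?_, by simp [hs]; omega⟩
      intro d hd'
      rcases List.mem_cons.1 hd' with rfl | hd'
      · exact Nat.mul_dvd_mul (pow_dvd_pow _ (Nat.le_succ D)) (Nat.dvd_factorial h0 hclt.le)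
      · exact hup d hd'

lemma prods_dvd : ∀ (l : List (ℕ × ℕ)), ∀ y ∈ prods l, y ∣ (l.map (fun x => x.1 * x.2)).prod
  | [], y, hy => by simp [prods] at hy; simp [hy]
  | x :: l, y, hy => by
    simp only [prods, Finset.mem_union, Finset.mem_image] at hy
    rw [List.map_cons, List.prod_cons]
    rcases hy with ⟨z, hz, rfl⟩ | ⟨z, hz, rfl⟩
    · exact Nat.mul_dvd_mul (dvd_mul_right _ _) (prods_dvd l z hz)
    · exact Nat.mul_dvd_mul (dvd_mul_left _ _) (prods_dvd l z hz)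

/-- The one-shot covering: few divisors represent every integer in `[V, 4V)`. -/
theorem core_cover {U : Finset ℕ} {e e1 L n Y0 gb N R b D : ℕ} {l : List (ℕ × ℕ)}
    (hp : GoodPool U e e1 L n Y0 l) (hpar : Params e L n Y0 gb N) (hR : R = 144000) (hN : N.Prime)
    (hD : 32 * (2 * 2 ^ L * R) * 2 ^ gb ≤ (2 ^ b) ^ D) :
    ∃ z : Fin R → ℕ, (∀ c, 0 < z c ∧ z c < 2 * Y0 ^ 2) ∧
      Cover ((∏ c, z c) * (l.map (fun x => x.1 * x.2)).prod * (N * ((2 ^ b) ^ D * (2 ^ b).factorial)))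
        (4 * (2 * 2 ^ L * R) * Y0 ^ 3) (2 * 2 ^ L * R + D) := by
  classical
  obtain ⟨z, hz, hres⟩ := residues hp hpar hR hN
  refine ⟨z, hz, fun x hxV hx4 => ?_⟩
  obtain ⟨t, ht, hmod⟩ := hres x
  set v := ∑ p, z p.1 * t p with hv
  have hvV : v ≤ 4 * (2 * 2 ^ L * R) * Y0 ^ 3 := by
    calc v ≤ ∑ _p : Fin R × Fin (2 * 2 ^ L), 4 * Y0 ^ 3 := Finset.sum_le_sum fun p _ => by
          calc z p.1 * t p ≤ (2 * Y0 ^ 2) * (2 * Y0) :=
                Nat.mul_le_mul (hz p.1).2.le (hp.bounds _ (ht p)).2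
            _ = _ := by ring
      _ = _ := by simp; ring
  obtain ⟨i, hi⟩ := (Nat.modEq_iff_dvd' (hvV.trans hxV)).1 hmod
  have hilt : i < (2 ^ b) ^ D := by
    refine lt_of_lt_of_le ?_ hD
    refine Nat.lt_of_mul_lt_mul_left (a := N) ?_
    calc N * i = x - v := hi.symm
      _ ≤ x := Nat.sub_le _ _
      _ < 4 * (4 * (2 * 2 ^ L * R) * Y0 ^ 3) := hx4
      _ ≤ 4 * (4 * (2 * 2 ^ L * R) * (N * 2 ^ gb)) := by gcongr; exact hpar.Nlow
      _ ≤ _ := by nlinarith [Nat.zero_le ((2 * 2 ^ L * R) * (N * 2 ^ gb))]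
  obtain ⟨F, hFl, hFd, hFs⟩ := digits_rep b D i hilt
  refine ⟨(Finset.univ : Finset (Fin R × Fin (2 * 2 ^ L))).toList.map (fun p => z p.1 * t p)
    ++ F.map (fun d => N * d), ?_, ?_, ?_⟩
  · simp; linarith
  · intro d hd
    rcases List.mem_append.1 hd with h | h
    · obtain ⟨p, -, rfl⟩ := List.mem_map.1 h
      exact Dvd.dvd.mul_right (Nat.mul_dvd_mul (Finset.dvd_prod_of_mem _ (Finset.mem_univ p.1))
        (prods_dvd l _ (ht p))) _
    · obtain ⟨d', hd', rfl⟩ := List.mem_map.1 h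
      exact Dvd.dvd.mul_left (Nat.mul_dvd_mul_left N (hFd d' hd')) _
  · rw [List.sum_append, Finset.sum_map_toList, List.sum_map_mul_left, List.map_id', hFs, ← hv, ← hi]
    omega

end Vale.Agent.P012.Full
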