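import Mathlib.Algebra.BigOperators.Field
import Mathlib.Data.Rat.Defs
import Mathlib.Algebra.Order.Field.Rat
import Mathlib.Tactic

namespace Vale.Agent.P012.Full

open Finset

/-- Adding a unit fraction to a sum of distinct ones costs at most one term (Takenouchi). -/
theorem insert_unit : ∀ (k n : ℕ) (s : Finset ℕ), s.card ≤ k → 2 ≤ n → (∀ i ∈ s, 2 ≤ i) →
    (1 : ℚ) / n + ∑ i ∈ s, (1 : ℚ) / i < 1 →
    ∃ t : Finset ℕ, t.card ≤ k + 1 ∧ (∀ i ∈ t, 2 ≤ i) ∧
      ∑ i ∈ t, (1 : ℚ) / i = (1 : ℚ) / n + ∑ i ∈ s, (1 : ℚ) / i := by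
  classical
  intro k
  induction k with
  | zero =>
    intro n s hs hn _ _
    have : s = ∅ := Finset.card_eq_zero.1 (Nat.le_zero.1 hs)
    exact ⟨{n}, by simp, by simp [hn], by simp [this]⟩
  | succ k ih =>
    intro n
    induction n using Nat.strong_induction_on with
    | _ n ihn =>
      intro s hs hn hs2 hlt
      by_cases hmem : n ∈ s
      swap
      · exact ⟨insert n s, (Finset.card_insert_le _ _).trans (by omega),
          by simpa using ⟨hn, hs2⟩, Finset.sum_insert hmem⟩
      have hsum := Finset.add_sum_erase s (fun i : ℕ => (1 : ℚ) / i) hmem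
      have hcard : (s.erase n).card ≤ k := by rw [Finset.card_erase_of_mem hmem]; omega
      have he2 : ∀ i ∈ s.erase n, 2 ≤ i := fun i hi => hs2 i (Finset.mem_of_mem_erase hi)
      have hnn : 0 ≤ ∑ i ∈ s.erase n, (1 : ℚ) / i := Finset.sum_nonneg fun i _ => by positivity
      have hn0 : (0 : ℚ) < n := by exact_mod_cast (show 0 < n by omega)
      rcases Nat.even_or_odd n with ⟨h, rfl⟩ | ⟨h, rfl⟩
      · have e : (1 : ℚ) / (h : ℕ) = 1 / ((h + h : ℕ) : ℚ) + 1 / ((h + h : ℕ) : ℚ) := by
          have : (h : ℚ) ≠ 0 := by exact_mod_cast (show h ≠ 0 by omega)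
          push_cast; field_simp; try ring
        have h2 : 2 ≤ h := by
          by_contra hc
          have h1 : h = 1 := by omega
          subst h1
          norm_num at hlt hsum hnn ⊢
          linarith
        obtain ⟨t, ht, ht2, hts⟩ := ih h (s.erase (h + h)) hcard h2 he2 (by rw [e]; linarith)
        exact ⟨t, by omega, ht2, by rw [hts, e]; linarith⟩
      · have hh : 1 ≤ h := by omega
        have e : (1 : ℚ) / ((h + 1 : ℕ) : ℚ) + 1 / (((2 * h + 1) * (h + 1) : ℕ) : ℚ)
            = 1 / ((2 * h + 1 : ℕ) : ℚ) + 1 / ((2 * h + 1 : ℕ) : ℚ) := by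
          push_cast; field_simp; try ring
        have hpos : 0 ≤ (1 : ℚ) / ((h + 1 : ℕ) : ℚ) := by positivity
        obtain ⟨t, ht, ht2, hts⟩ := ih ((2 * h + 1) * (h + 1)) (s.erase (2 * h + 1)) hcard
          (by nlinarith) he2 (by linarith)
        obtain ⟨u, hu, hu2, hus⟩ := ihn (h + 1) (by omega) t (by omega) (by omega) ht2
          (by rw [hts]; linarith)
        exact ⟨u, hu, hu2, by rw [hus, hts]; linarith⟩

/-- A list of unit fractions with sum below one can be made distinct without more terms. -/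
theorem distinct_of_list : ∀ l : List ℕ, (∀ i ∈ l, 0 < i) →
    (l.map (fun i : ℕ => (1 : ℚ) / i)).sum < 1 →
    ∃ t : Finset ℕ, t.card ≤ l.length ∧ (∀ i ∈ t, 2 ≤ i) ∧
      ∑ i ∈ t, (1 : ℚ) / i = (l.map (fun i : ℕ => (1 : ℚ) / i)).sum
  | [], _, _ => ⟨∅, by simp, by simp, by simp⟩
  | n :: l, hpos, hlt => by
    rw [List.map_cons, List.sum_cons] at hlt ⊢
    have hl : 0 ≤ (l.map (fun i : ℕ => (1 : ℚ) / i)).sum :=
      List.sum_nonneg (by intro x hx; obtain ⟨i, -, rfl⟩ := List.mem_map.1 hx; positivity)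
    have hn0 : 0 < n := hpos n List.mem_cons_self
    have hn : 2 ≤ n := by
      by_contra hc
      have h1 : n = 1 := by omega
      subst h1
      norm_num at hlt
      have : (0 : ℚ) ≤ (l.map (fun i : ℕ => (1 : ℚ) / i)).sum := hl
      simp only [one_div] at this
      linarith
    have hnp : 0 ≤ (1 : ℚ) / n := by positivity
    obtain ⟨s, hs, hs2, hss⟩ := distinct_of_list l (fun i hi => hpos i (List.mem_cons_of_mem _ hi)) (by linarith)
    obtain ⟨t, ht, ht2, hts⟩ := insert_unit l.length n s hs hn hs2 (by rw [hss]; exact hlt)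
    exact ⟨t, by simpa using ht, ht2, by rw [hts, hss]⟩

end Vale.Agent.P012.Full
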