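import Mathlib.Analysis.SpecialFunctions.Trigonometric.Bounds
import Mathlib.Analysis.SpecialFunctions.Complex.Circle
import Mathlib.Algebra.Field.GeomSum
import Mathlib.Algebra.Order.Round
import Mathlib.Data.Fintype.BigOperators

namespace Vale.Agent.P012.Full

open Finset

/-- `e(x) = exp(2 π i x)`. -/
noncomputable def ef (x : ℝ) : ℂ := Complex.exp (((2 * Real.pi * x : ℝ) : ℂ) * Complex.I)

lemma norm_ef (x : ℝ) : ‖ef x‖ = 1 := Complex.norm_exp_ofReal_mul_I _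

lemma ef_zero : ef 0 = 1 := by simp [ef]

lemma ef_add (x y : ℝ) : ef (x + y) = ef x * ef y := by
  rw [ef, ef, ef, ← Complex.exp_add]; congr 1; push_cast; ring

lemma ef_neg (x : ℝ) : ef (-x) = (starRingEnd ℂ) (ef x) := by
  rw [ef, ef, ← Complex.exp_conj]; congr 1
  rw [map_mul, Complex.conj_ofReal, Complex.conj_I]
  push_cast; ring

lemma ef_int (n : ℤ) : ef (n : ℝ) = 1 := by
  rw [ef, Complex.exp_eq_one_iff]
  exact ⟨n, by push_cast; ring⟩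

lemma ef_add_int (x : ℝ) (n : ℤ) : ef (x + n) = ef x := by rw [ef_add, ef_int, mul_one]

lemma ef_nat_mul (k : ℕ) (x : ℝ) : ef ((k : ℝ) * x) = ef x ^ k := by
  rw [ef, ef, ← Complex.exp_nat_mul]; congr 1; push_cast; ring

lemma ef_sum {ι : Type*} (s : Finset ι) (f : ι → ℝ) : ef (∑ i ∈ s, f i) = ∏ i ∈ s, ef (f i) := by
  classical
  induction s using Finset.induction_on with
  | empty => simp [ef_zero]
  | insert a s ha ih => rw [Finset.sum_insert ha, Finset.prod_insert ha, ef_add, ih]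

lemma norm_ef_sub_one (x : ℝ) : ‖ef x - 1‖ = 2 * |Real.sin (Real.pi * x)| := by
  rw [ef, mul_comm, Complex.norm_exp_I_mul_ofReal_sub_one, Real.norm_eq_abs, abs_mul]
  congr 1
  · norm_num
  · congr 2; ring

lemma ef_eq_one_iff (x : ℝ) : ef x = 1 ↔ ∃ n : ℤ, x = n := by
  constructor
  · intro h
    rw [ef, Complex.exp_eq_one_iff] at h
    obtain ⟨n, hn⟩ := h
    refine ⟨n, ?_⟩
    have h2 := congrArg Complex.im hn
    simp at h2
    have hpi := Real.pi_pos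
    nlinarith
  · rintro ⟨n, rfl⟩; exact ef_int n

/-- Orthogonality. -/
lemma sum_ef_div {N : ℕ} (hN : 0 < N) (u : ℤ) :
    ∑ h ∈ Finset.range N, ef ((h : ℝ) * (u : ℝ) / N) = if (N : ℤ) ∣ u then (N : ℂ) else 0 := by
  have hN' : (N : ℝ) ≠ 0 := Nat.cast_ne_zero.2 hN.ne'
  have key : ∀ h : ℕ, ef ((h : ℝ) * (u : ℝ) / N) = ef ((u : ℝ) / N) ^ h := by
    intro h; rw [← ef_nat_mul]; congr 1; ring
  simp only [key]
  by_cases hd : (N : ℤ) ∣ u
  · obtain ⟨w, rfl⟩ := hd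
    have : ef ((((N : ℤ) * w : ℤ) : ℝ) / N) = 1 := by
      rw [show (((N : ℤ) * w : ℤ) : ℝ) / N = ((w : ℤ) : ℝ) by push_cast; field_simp, ef_int]
    simp only [this, one_pow]
    simp
  · rw [if_neg hd]
    have hne : ef ((u : ℝ) / N) ≠ 1 := by
      rw [Ne, ef_eq_one_iff]
      rintro ⟨n, hn⟩
      apply hd
      rw [div_eq_iff hN'] at hn
      exact ⟨n, by exact_mod_cast hn.trans (mul_comm _ _)⟩
    have hpow : ef ((u : ℝ) / N) ^ N = 1 := by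
      rw [← ef_nat_mul, show (N : ℝ) * ((u : ℝ) / N) = ((u : ℤ) : ℝ) by field_simp, ef_int]
    rw [geom_sum_eq hne, hpow]; simp

/-- Averaging over an interval of integer multipliers. -/
lemma norm_sum_ef_Ico (Z : ℕ) (φ δ : ℝ) (hδ : 0 < δ) (h : ∀ n : ℤ, δ ≤ |φ - n|) :
    ‖∑ i ∈ Finset.range Z, ef (((Z + i : ℕ) : ℝ) * φ)‖ ≤ 1 / (2 * δ) := by
  set ψ := φ - round φ with hψ
  have hψ1 : |ψ| ≤ 1 / 2 := abs_sub_round φ
  have hψ2 : δ ≤ |ψ| := h (round φ)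
  have hef : ef φ = ef ψ := by
    conv_lhs => rw [show φ = ψ + ((round φ : ℤ) : ℝ) by rw [hψ]; ring]
    rw [ef_add_int]
  have hterm : ∀ i : ℕ, ef (((Z + i : ℕ) : ℝ) * φ) = ef ψ ^ Z * ef ψ ^ i := by
    intro i; rw [ef_nat_mul, hef, pow_add]
  simp only [hterm]
  rw [← Finset.mul_sum, norm_mul, norm_pow, norm_ef, one_pow, one_mul]
  have hlow : 4 * δ ≤ ‖ef ψ - 1‖ := by
    rw [norm_ef_sub_one]
    have hx : |Real.pi * ψ| ≤ Real.pi / 2 := by
      rw [abs_mul, abs_of_pos Real.pi_pos]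
      nlinarith [Real.pi_pos]
    have h1 := Real.mul_abs_le_abs_sin hx
    rw [abs_mul, abs_of_pos Real.pi_pos, ← mul_assoc, div_mul_cancel₀ _ Real.pi_pos.ne'] at h1
    linarith
  have hne : ef ψ ≠ 1 := by
    intro h1; rw [h1, sub_self, norm_zero] at hlow; linarith
  rw [geom_sum_eq hne, norm_div]
  have hnum : ‖ef ψ ^ Z - 1‖ ≤ 2 := by
    refine (norm_sub_le _ _).trans ?_
    rw [norm_pow, norm_ef, one_pow, norm_one]; norm_num
  calc ‖ef ψ ^ Z - 1‖ / ‖ef ψ - 1‖ ≤ 2 / (4 * δ) := div_le_div₀ (by norm_num) hnum (by positivity) hlow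
    _ = 1 / (2 * δ) := by ring

/-- Unnormalised exponential sum over a set of natural numbers. -/
noncomputable def expS (A : Finset ℕ) (φ : ℝ) : ℂ := ∑ a ∈ A, ef ((a : ℝ) * φ)

lemma norm_expS_le (A : Finset ℕ) (φ : ℝ) : ‖expS A φ‖ ≤ (A.card : ℝ) := by
  refine (norm_sum_le _ _).trans ?_
  simp [norm_ef]

lemma expS_periodic (A : Finset ℕ) (φ : ℝ) (n : ℤ) : expS A (φ + n) = expS A φ := by
  refine Finset.sum_congr rfl fun a _ => ?_
  rw [show (a : ℝ) * (φ + n) = (a : ℝ) * φ + (((a : ℤ) * n : ℤ) : ℝ) by push_cast; ring, ef_add_int]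

/-- Pairs of `j`-tuples of elements of `A`. -/
def tup (A : Finset ℕ) (j : ℕ) : Finset ((Fin j → ℕ) × (Fin j → ℕ)) :=
  Fintype.piFinset (fun _ => A) ×ˢ Fintype.piFinset (fun _ => A)

/-- The signed sum of a pair of tuples. -/
def tval {j : ℕ} (τ : (Fin j → ℕ) × (Fin j → ℕ)) : ℤ :=
  (∑ i, (τ.1 i : ℤ)) - ∑ i, (τ.2 i : ℤ)

lemma card_tup (A : Finset ℕ) (j : ℕ) : (tup A j).card = A.card ^ (2 * j) := by
  simp [tup, Fintype.card_piFinset, two_mul, pow_add]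

lemma abs_tval_le {A : Finset ℕ} {j H : ℕ} (hA : ∀ a ∈ A, a ≤ H) {τ} (hτ : τ ∈ tup A j) :
    |tval τ| ≤ ((j * H : ℕ) : ℤ) := by
  simp only [tup, Finset.mem_product, Fintype.mem_piFinset] at hτ
  have h : ∀ f : Fin j → ℕ, (∀ i, f i ∈ A) → 0 ≤ ∑ i, (f i : ℤ) ∧ ∑ i, (f i : ℤ) ≤ ((j * H : ℕ) : ℤ) := by
    intro f hf
    refine ⟨Finset.sum_nonneg fun i _ => by positivity, ?_⟩
    refine (Finset.sum_le_sum fun i _ => (show (f i : ℤ) ≤ (H : ℤ) by exact_mod_cast hA _ (hf i))).trans ?_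
    simp
  have h1 := h τ.1 hτ.1
  have h2 := h τ.2 hτ.2
  rw [tval, abs_le]
  constructor <;> linarith

lemma norm_pow_eq (A : Finset ℕ) (j : ℕ) (φ : ℝ) :
    ((‖expS A φ‖ ^ (2 * j) : ℝ) : ℂ) = ∑ τ ∈ tup A j, ef ((tval τ : ℝ) * φ) := by
  have h1 : expS A φ ^ j = ∑ f ∈ Fintype.piFinset (fun _ : Fin j => A), ef ((∑ i, (f i : ℝ)) * φ) := by
    rw [expS, Finset.sum_pow']
    refine Finset.sum_congr rfl fun f _ => ?_
    rw [Finset.sum_mul, ef_sum]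
  have h2 : ((‖expS A φ‖ ^ (2 * j) : ℝ) : ℂ) = expS A φ ^ j * (starRingEnd ℂ) (expS A φ ^ j) := by
    rw [Complex.mul_conj, Complex.normSq_eq_norm_sq, norm_pow, ← pow_mul, mul_comm 2 j]
  rw [h2, h1, map_sum, tup, Finset.sum_product, Finset.sum_mul_sum]
  refine Finset.sum_congr rfl fun f _ => Finset.sum_congr rfl fun g _ => ?_
  rw [← ef_neg, ← ef_add]
  congr 1
  simp only [tval]; push_cast; ring

/-- Number of pairs of `j`-tuples with equal sums. -/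
def rcoll (A : Finset ℕ) (j : ℕ) : ℕ := ((tup A j).filter (fun τ => tval τ = 0)).card

lemma sum_moment (A : Finset ℕ) (j : ℕ) {H Q : ℕ} (hA : ∀ a ∈ A, a ≤ H) (hQ : j * H < Q) :
    ∑ h ∈ Finset.range Q, ‖expS A ((h : ℝ) / Q)‖ ^ (2 * j) = (Q : ℝ) * rcoll A j := by
  apply Complex.ofReal_injective
  rw [Complex.ofReal_sum]
  simp only [norm_pow_eq]
  rw [Finset.sum_comm, rcoll, Finset.card_filter]
  push_cast
  rw [Finset.mul_sum]
  refine Finset.sum_congr rfl fun τ hτ => ?_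
  have e : ∀ h : ℕ, (tval τ : ℝ) * ((h : ℝ) / Q) = (h : ℝ) * (tval τ : ℝ) / Q := fun h => by ring
  simp only [e]
  rw [sum_ef_div (by omega)]
  have hlt : |tval τ| < (Q : ℤ) := lt_of_le_of_lt (abs_tval_le hA hτ) (by exact_mod_cast hQ)
  have : (Q : ℤ) ∣ tval τ ↔ tval τ = 0 :=
    ⟨fun hd => Int.eq_zero_of_abs_lt_dvd hd hlt, fun h => h ▸ dvd_zero _⟩
  by_cases h0 : tval τ = 0
  · simp [h0]
  · simp [mt this.1 h0, h0]

lemma sum_cross (A : Finset ℕ) (i p p' : ℕ) {H Q : ℕ} (hA : ∀ a ∈ A, a ≤ H)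
    (hQ : (p + p') * (i * H) < Q) :
    ∑ h ∈ Finset.range Q, ‖expS A ((p : ℝ) * ((h : ℝ) / Q))‖ ^ (2 * i) *
        ‖expS A ((p' : ℝ) * ((h : ℝ) / Q))‖ ^ (2 * i) =
      (Q : ℝ) * ((tup A i ×ˢ tup A i).filter
        (fun q => (p : ℤ) * tval q.1 + (p' : ℤ) * tval q.2 = 0)).card := by
  apply Complex.ofReal_injective
  rw [Complex.ofReal_sum]
  simp only [Complex.ofReal_mul, norm_pow_eq, Finset.sum_mul_sum, ← ef_add]
  rw [Finset.sum_congr rfl (fun h _ => (Finset.sum_product' (tup A i) (tup A i) _).symm),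
    Finset.sum_comm, Finset.card_filter]
  push_cast
  rw [Finset.mul_sum]
  refine Finset.sum_congr rfl fun q hq => ?_
  rw [Finset.mem_product] at hq
  set u : ℤ := (p : ℤ) * tval q.1 + (p' : ℤ) * tval q.2 with hu
  have e : ∀ h : ℕ, (tval q.1 : ℝ) * ((p : ℝ) * ((h : ℝ) / Q)) + (tval q.2 : ℝ) * ((p' : ℝ) * ((h : ℝ) / Q))
      = (h : ℝ) * (u : ℝ) / Q := fun h => by rw [hu]; push_cast; ring
  simp only [e]
  rw [sum_ef_div (by omega)]
  have hlt : |u| < (Q : ℤ) := by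
    have h1 := abs_tval_le hA hq.1
    have h2 := abs_tval_le hA hq.2
    have hQ' : (((p + p') * (i * H) : ℕ) : ℤ) < (Q : ℤ) := by exact_mod_cast hQ
    push_cast at h1 h2 hQ'
    calc |u| ≤ |(p : ℤ) * tval q.1| + |(p' : ℤ) * tval q.2| := abs_add_le _ _
      _ = (p : ℤ) * |tval q.1| + (p' : ℤ) * |tval q.2| := by simp [abs_mul]
      _ ≤ (p : ℤ) * ((i : ℤ) * H) + (p' : ℤ) * ((i : ℤ) * H) := by gcongr
      _ < _ := by linarith
  have : (Q : ℤ) ∣ u ↔ u = 0 :=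
    ⟨fun hd => Int.eq_zero_of_abs_lt_dvd hd hlt, fun h => h ▸ dvd_zero _⟩
  by_cases h0 : u = 0
  · simp [h0]
  · simp [mt this.1 h0, h0]

lemma mod_mul_bij {Q p : ℕ} (hQ : 0 < Q) (hp : p.Coprime Q) (F : ℕ → ℝ) :
    ∑ h ∈ Finset.range Q, F (p * h % Q) = ∑ h ∈ Finset.range Q, F h := by
  have hinj : Set.InjOn (fun h => p * h % Q) ↑(Finset.range Q) := by
    intro a ha b hb hab
    simp only [Finset.coe_range, Set.mem_Iio] at ha hb
    have : Nat.ModEq Q a b := Nat.ModEq.cancel_left_of_coprime (Nat.coprime_comm.1 hp) hab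
    exact this.eq_of_lt_of_lt ha hb
  have himg : (Finset.range Q).image (fun h => p * h % Q) = Finset.range Q := by
    refine Finset.eq_of_subset_of_card_le ?_ (le_of_eq (Finset.card_image_of_injOn hinj).symm)
    intro x hx
    obtain ⟨h, -, rfl⟩ := Finset.mem_image.1 hx
    exact Finset.mem_range.2 (Nat.mod_lt _ hQ)
  conv_rhs => rw [← himg]
  rw [Finset.sum_image hinj]

lemma sum_moment_dilate (A : Finset ℕ) (k : ℕ) {Q p : ℕ} (hQ : 0 < Q) (hp : p.Coprime Q) :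
    ∑ h ∈ Finset.range Q, ‖expS A ((p : ℝ) * ((h : ℝ) / Q))‖ ^ k
      = ∑ h ∈ Finset.range Q, ‖expS A ((h : ℝ) / Q)‖ ^ k := by
  rw [← mod_mul_bij hQ hp (fun h => ‖expS A ((h : ℝ) / Q)‖ ^ k)]
  refine Finset.sum_congr rfl fun h _ => ?_
  have hQ' : (Q : ℝ) ≠ 0 := Nat.cast_ne_zero.2 hQ.ne'
  have e : (p : ℝ) * ((h : ℝ) / Q) = ((p * h % Q : ℕ) : ℝ) / Q + (((p * h / Q : ℕ) : ℤ) : ℝ) := by
    have := Nat.div_add_mod (p * h) Q
    have h' : (Q : ℝ) * ((p * h / Q : ℕ) : ℝ) + ((p * h % Q : ℕ) : ℝ) = (p : ℝ) * h := by exact_mod_cast this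
    rw [Int.cast_natCast, ← mul_div_assoc, ← h']
    field_simp
    ring
  rw [e, expS_periodic]

end Vale.Agent.P012.Full
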