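import Vale.Agent.P012.Full.Gcd
import Mathlib.Algebra.Order.Chebyshev
import Mathlib.Data.Nat.Sqrt
import Mathlib.RingTheory.Coprime.Lemmas

namespace Vale.Agent.P012.Full

open Finset

/-- Everything we need from the pool of slots. -/
structure GoodPool (U : Finset ℕ) (e e1 L n Y0 : ℕ) (l : List (ℕ × ℕ)) : Prop where
  prime : ∀ p ∈ U, p.Prime
  range : ∀ p ∈ U, 2 ^ e1 ≤ p ∧ p ≤ 2 ^ e
  ratio : 4 * e ≤ 5 * e1
  epos : 0 < e
  valid : Valid U l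
  len : l.length = n
  bounds : ∀ y ∈ prods l, Y0 ≤ y ∧ y ≤ 2 * Y0
  coll : ∀ s, s <:+ l → nc (prods s) (2 ^ L) ≤ (4 / 5 : ℝ) ^ (2 ^ L * (s.length - 7 * L))

lemma slotPrimes_left_subset : ∀ (pre suf : List (ℕ × ℕ)), slotPrimes pre ⊆ slotPrimes (pre ++ suf)
  | [], _ => Finset.empty_subset _
  | _ :: pre, suf => Finset.insert_subset_insert _ (Finset.insert_subset_insert _ (slotPrimes_left_subset pre suf))

lemma valid_left {U : Finset ℕ} : ∀ {pre suf : List (ℕ × ℕ)}, Valid U (pre ++ suf) → Valid U pre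
  | [], _, _ => trivial
  | _ :: pre, suf, h => ⟨h.1, h.2.1, h.2.2.1,
      fun hh => h.2.2.2.1 (slotPrimes_left_subset pre suf hh),
      fun hh => h.2.2.2.2.1 (slotPrimes_left_subset pre suf hh), valid_left h.2.2.2.2.2⟩

lemma valid_right {U : Finset ℕ} : ∀ {pre suf : List (ℕ × ℕ)}, Valid U (pre ++ suf) → Valid U suf
  | [], _, h => h
  | _ :: _, _, h => valid_right (show Valid U _ from h.2.2.2.2.2)

lemma mul_mem_prods : ∀ {pre suf : List (ℕ × ℕ)} {w v : ℕ}, w ∈ prods pre → v ∈ prods suf →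
    w * v ∈ prods (pre ++ suf)
  | [], _, w, v, hw, hv => by
    simp only [prods, Finset.mem_singleton] at hw
    simpa [hw] using hv
  | x :: pre, suf, w, v, hw, hv => by
    simp only [prods, List.cons_append, Finset.mem_union, Finset.mem_image] at hw ⊢
    rcases hw with ⟨w', hw', rfl⟩ | ⟨w', hw', rfl⟩
    · exact Or.inl ⟨w' * v, mul_mem_prods hw' hv, (mul_assoc _ _ _).symm⟩
    · exact Or.inr ⟨w' * v, mul_mem_prods hw' hv, (mul_assoc _ _ _).symm⟩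

lemma expS_append {U : Finset ℕ} (hU : ∀ p ∈ U, p.Prime) :
    ∀ {pre suf : List (ℕ × ℕ)}, Valid U (pre ++ suf) → ∀ φ : ℝ,
      expS (prods (pre ++ suf)) φ = ∑ w ∈ prods pre, expS (prods suf) ((w : ℝ) * φ)
  | [], suf, _, φ => by simp [prods]
  | x :: pre, suf, h, φ => by
    have hv := valid_left (pre := x :: pre) (suf := suf) h
    rw [List.cons_append, expS_cons hU (show Valid U (x :: (pre ++ suf)) from h), expS_append hU h.2.2.2.2.2, expS_append hU h.2.2.2.2.2]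
    rw [prods, Finset.sum_union (prods_cons_disjoint hU hv),
      Finset.sum_image (fun a _ b _ hab => Nat.eq_of_mul_eq_mul_left (hU _ h.1).pos hab),
      Finset.sum_image (fun a _ b _ hab => Nat.eq_of_mul_eq_mul_left (hU _ h.2.1).pos hab)]
    congr 1 <;> refine Finset.sum_congr rfl fun a _ => ?_ <;> congr 1 <;> push_cast <;> ring

lemma avg_le (A : Finset ℕ) (hA : A.Nonempty) (j Z : ℕ) (hZ : 0 < Z) (φ δ : ℝ) (hδ : 0 < δ)
    (h : ∀ τ ∈ tup A j, tval τ ≠ 0 → ∀ k : ℤ, δ ≤ |(tval τ : ℝ) * φ - k|) :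
    (∑ i ∈ Finset.range Z, (‖expS A (((Z + i : ℕ) : ℝ) * φ)‖ / (A.card : ℝ)) ^ (2 * j)) / (Z : ℝ)
      ≤ nc A j + 1 / (2 * δ * Z) := by
  have hc : (0 : ℝ) < (A.card : ℝ) := by exact_mod_cast hA.card_pos
  have hterm : ∀ τ ∈ tup A j,
      ‖∑ i ∈ Finset.range Z, ef (((Z + i : ℕ) : ℝ) * ((tval τ : ℝ) * φ))‖
        ≤ (if tval τ = 0 then (Z : ℝ) else 0) + 1 / (2 * δ) := by
    intro τ hτ
    have : 0 ≤ 1 / (2 * δ) := by positivity
    by_cases h0 : tval τ = 0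
    · rw [if_pos h0]
      refine (norm_sum_le _ _).trans ?_
      simp [norm_ef, hδ.le]
    · rw [if_neg h0, zero_add]
      exact norm_sum_ef_Ico Z _ δ hδ (h τ hτ h0)
  have hmain : ∑ i ∈ Finset.range Z, ‖expS A (((Z + i : ℕ) : ℝ) * φ)‖ ^ (2 * j)
      ≤ (Z : ℝ) * rcoll A j + ((tup A j).card : ℝ) * (1 / (2 * δ)) := by
    have hnn : 0 ≤ ∑ i ∈ Finset.range Z, ‖expS A (((Z + i : ℕ) : ℝ) * φ)‖ ^ (2 * j) := by positivity
    rw [← Real.norm_of_nonneg hnn, ← Complex.norm_real, Complex.ofReal_sum]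
    simp only [norm_pow_eq]
    rw [Finset.sum_comm]
    refine (norm_sum_le _ _).trans ?_
    refine (Finset.sum_le_sum (g := fun τ => (if tval τ = 0 then (Z : ℝ) else 0) + 1 / (2 * δ))
      fun τ hτ => ?_).trans_eq ?_
    · refine le_of_eq_of_le ?_ (hterm τ hτ)
      congr 1
      refine Finset.sum_congr rfl fun i _ => ?_
      congr 1; ring
    · rw [Finset.sum_add_distrib, Finset.sum_const, nsmul_eq_mul, rcoll, ← Finset.sum_filter,
        Finset.sum_const, nsmul_eq_mul, mul_comm (Z : ℝ)]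
  simp only [div_pow]
  rw [← Finset.sum_div, div_div, div_le_iff₀ (by positivity)]
  refine hmain.trans_eq ?_
  rw [nc, card_tup]
  push_cast
  field_simp

lemma near_int_ndvd {x a s : ℤ} {q N h : ℕ} (hq : 0 < q) (hN : 0 < N)
    (heq : (h : ℤ) * q = a * N + s) (hcop : IsCoprime a (q : ℤ)) (hx : ¬ (q : ℤ) ∣ x)
    (hsmall : 2 * |x * s| ≤ (N : ℤ)) (k : ℤ) :
    1 / (2 * (q : ℝ)) ≤ |(x : ℝ) * ((h : ℝ) / N) - k| := by
  have hq' : (0 : ℝ) < q := by exact_mod_cast hq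
  have hN' : (0 : ℝ) < N := by exact_mod_cast hN
  have heq' : (h : ℝ) * q = (a : ℝ) * N + s := by exact_mod_cast heq
  have hz : x * a - k * q ≠ 0 := by
    intro h0
    exact hx (hcop.symm.dvd_of_dvd_mul_right ⟨k, by linarith⟩)
  have h1 : (1 : ℝ) ≤ |((x * a - k * q : ℤ) : ℝ)| := by exact_mod_cast Int.one_le_abs hz
  have h2 : 2 * |((x * s : ℤ) : ℝ)| ≤ (N : ℝ) := by exact_mod_cast hsmall
  have key : (x : ℝ) * ((h : ℝ) / N) - k
      = (((x * a - k * q : ℤ) : ℝ) * N + ((x * s : ℤ) : ℝ)) / (q * N) := by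
    field_simp; push_cast; linear_combination (x : ℝ) * heq'
  rw [key, abs_div, abs_of_pos (show (0 : ℝ) < q * N by positivity), le_div_iff₀ (by positivity)]
  have h3 := abs_sub_abs_le_abs_sub (((x * a - k * q : ℤ) : ℝ) * N) (-((x * s : ℤ) : ℝ))
  rw [sub_neg_eq_add, abs_neg, abs_mul, abs_of_pos hN'] at h3
  have h4 : (N : ℝ) ≤ |((x * a - k * q : ℤ) : ℝ)| * N := le_mul_of_one_le_left hN'.le h1
  have h5 : 1 / (2 * (q : ℝ)) * (q * N) = (N : ℝ) / 2 := by field_simp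
  rw [h5]; linarith

lemma near_int_dvd {x a s : ℤ} {q N h : ℕ} (hq : 0 < q) (hN : 0 < N)
    (heq : (h : ℤ) * q = a * N + s) (hx : (q : ℤ) ∣ x)
    (hsmall : 2 * |x * s| ≤ (N : ℤ)) (k : ℤ) :
    |((x * s : ℤ) : ℝ)| / ((q : ℝ) * N) ≤ |(x : ℝ) * ((h : ℝ) / N) - k| := by
  have hq' : (0 : ℝ) < q := by exact_mod_cast hq
  have hN' : (0 : ℝ) < N := by exact_mod_cast hN
  have heq' : (h : ℝ) * q = (a : ℝ) * N + s := by exact_mod_cast heq
  obtain ⟨x', rfl⟩ := hx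
  set c : ℤ := x' * a - k with hc
  have key : (((q : ℤ) * x' : ℤ) : ℝ) * ((h : ℝ) / N) - k
      = ((c : ℝ) * (q * N) + (((q : ℤ) * x' * s : ℤ) : ℝ)) / (q * N) := by
    rw [hc]; field_simp; push_cast; linear_combination (x' : ℝ) * (q : ℝ) * heq'
  rw [key, abs_div, abs_of_pos (show (0 : ℝ) < q * N by positivity)]
  refine div_le_div_of_nonneg_right ?_ (by positivity)
  by_cases h0 : c = 0
  · simp [h0]
  have h1 : (1 : ℝ) ≤ |(c : ℝ)| := by exact_mod_cast Int.one_le_abs h0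
  have h2 : 2 * |(((q : ℤ) * x' * s : ℤ) : ℝ)| ≤ (N : ℝ) := by exact_mod_cast hsmall
  have h3 := abs_sub_abs_le_abs_sub ((c : ℝ) * (q * N)) (-(((q : ℤ) * x' * s : ℤ) : ℝ))
  rw [sub_neg_eq_add, abs_neg, abs_mul, abs_of_pos (show (0 : ℝ) < q * N by positivity)] at h3
  have h4 : (q : ℝ) * N ≤ |(c : ℝ)| * (q * N) := le_mul_of_one_le_left (by positivity) h1
  have h5 : (N : ℝ) ≤ (q : ℝ) * N := le_mul_of_one_le_left hN'.le (by exact_mod_cast hq)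
  linarith

/-- Normalised moment over the multipliers `z ∈ [Y0², 2 Y0²)`. -/
noncomputable def mom (l : List (ℕ × ℕ)) (n r Y0 : ℕ) (φ : ℝ) : ℝ :=
  (∑ i ∈ Finset.range (Y0 ^ 2),
    (‖expS (prods l) (((Y0 ^ 2 + i : ℕ) : ℝ) * φ)‖ / (2 : ℝ) ^ n) ^ (2 * r)) / ((Y0 ^ 2 : ℕ) : ℝ)

lemma mom_nonneg (l : List (ℕ × ℕ)) (n r Y0 : ℕ) (φ : ℝ) : 0 ≤ mom l n r Y0 φ := by
  unfold mom; positivity

lemma split_bound {U : Finset ℕ} (hU : ∀ p ∈ U, p.Prime) {pre suf : List (ℕ × ℕ)}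
    (hv : Valid U (pre ++ suf)) (G : Finset ℕ) (hG : G ⊆ prods pre) (r Y0 : ℕ) (hr : 0 < r)
    (hY : 0 < Y0) (φ δ : ℝ) (hδ : 0 < δ)
    (h : ∀ w ∈ G, ∀ τ ∈ tup (prods suf) r, tval τ ≠ 0 → ∀ k : ℤ, δ ≤ |(tval τ : ℝ) * ((w : ℝ) * φ) - k|) :
    mom (pre ++ suf) (pre ++ suf).length r Y0 φ ≤ (2 : ℝ) ^ (2 * r) *
      ((((prods pre \ G).card : ℝ) / (2 : ℝ) ^ pre.length) ^ (2 * r)
        + (nc (prods suf) r + 1 / (2 * δ * ((Y0 ^ 2 : ℕ) : ℝ)))) := by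
  classical
  set K : ℝ := (2 : ℝ) ^ pre.length with hK
  have hKc : ((prods pre).card : ℝ) = K := by
    rw [card_prods hU (valid_left hv), hK]; push_cast; ring
  have hTc : ((prods suf).card : ℝ) = (2 : ℝ) ^ suf.length := by
    rw [card_prods hU (valid_right hv)]; push_cast; ring
  set T : ℝ := (2 : ℝ) ^ suf.length with hT
  set P : ℝ := ((prods pre \ G).card : ℝ) / K with hP
  set Z := Y0 ^ 2 with hZ
  have hT0 : 0 < T := by positivity
  have hK0 : 0 < K := by positivity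
  have hpt : ∀ ψ : ℝ, (‖expS (prods (pre ++ suf)) ψ‖ / (2 : ℝ) ^ (pre ++ suf).length) ^ (2 * r)
      ≤ (2 : ℝ) ^ (2 * r) * (P ^ (2 * r) + (∑ w ∈ G, (‖expS (prods suf) ((w : ℝ) * ψ)‖ / T) ^ (2 * r)) / K) := by
    intro ψ
    rw [List.length_append, pow_add, ← hK, ← hT, expS_append hU hv]
    set b : ℝ := (∑ w ∈ G, ‖expS (prods suf) ((w : ℝ) * ψ)‖ / T) / K with hb
    have hb0 : 0 ≤ b := by positivity
    have hP0 : 0 ≤ P := by positivity
    have h1 : ‖∑ w ∈ prods pre, expS (prods suf) ((w : ℝ) * ψ)‖ / (K * T) ≤ P + b := by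
      rw [div_le_iff₀ (by positivity), ← Finset.sum_sdiff hG]
      refine (norm_add_le _ _).trans ?_
      have hb1 : ‖∑ w ∈ prods pre \ G, expS (prods suf) ((w : ℝ) * ψ)‖ ≤ P * (K * T) := by
        refine ((norm_sum_le _ _).trans (Finset.sum_le_card_nsmul _ _ T fun w _ => ?_)).trans_eq ?_
        · exact (norm_expS_le _ _).trans_eq hTc
        · rw [nsmul_eq_mul, hP]; field_simp
      have hb2 : ‖∑ w ∈ G, expS (prods suf) ((w : ℝ) * ψ)‖ ≤ b * (K * T) := by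
        refine (norm_sum_le _ _).trans_eq ?_
        rw [hb, ← Finset.sum_div]
        field_simp
        exact Finset.sum_congr rfl fun _ _ => by rw [mul_comm]
      linarith
    have h2 : b ^ (2 * r) ≤ (∑ w ∈ G, (‖expS (prods suf) ((w : ℝ) * ψ)‖ / T) ^ (2 * r)) / K := by
      obtain ⟨d, hd⟩ : ∃ d, 2 * r = d + 1 := ⟨2 * r - 1, by omega⟩
      rw [hd, hb, div_pow, div_le_div_iff₀ (by positivity) hK0]
      have h3 := pow_sum_le_card_mul_sum_pow (s := G) (f := fun w => ‖expS (prods suf) ((w : ℝ) * ψ)‖ / T)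
        (fun _ _ => by positivity) d
      have h4 : (G.card : ℝ) ≤ K := by rw [← hKc]; exact_mod_cast Finset.card_le_card hG
      have h6 : (G.card : ℝ) ^ d ≤ K ^ d := pow_le_pow_left₀ (by positivity) h4 d
      have h7 : 0 ≤ ∑ w ∈ G, (‖expS (prods suf) ((w : ℝ) * ψ)‖ / T) ^ (d + 1) := by positivity
      calc (∑ w ∈ G, ‖expS (prods suf) ((w : ℝ) * ψ)‖ / T) ^ (d + 1) * K
          ≤ ((G.card : ℝ) ^ d * ∑ w ∈ G, (‖expS (prods suf) ((w : ℝ) * ψ)‖ / T) ^ (d + 1)) * K := by gcongr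
        _ ≤ (K ^ d * ∑ w ∈ G, (‖expS (prods suf) ((w : ℝ) * ψ)‖ / T) ^ (d + 1)) * K := by gcongr
        _ = _ := by ring
    calc (‖∑ w ∈ prods pre, expS (prods suf) ((w : ℝ) * ψ)‖ / (K * T)) ^ (2 * r)
        ≤ (P + b) ^ (2 * r) := pow_le_pow_left₀ (by positivity) h1 _
      _ ≤ (2 * max P b) ^ (2 * r) := by
          refine pow_le_pow_left₀ (by positivity) ?_ _
          rcases max_choice P b with hm | hm <;> rw [hm] <;>
            [have := max_eq_left_iff.1 hm; have := max_eq_right_iff.1 hm] <;> linarith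
      _ ≤ (2 : ℝ) ^ (2 * r) * (P ^ (2 * r) + b ^ (2 * r)) := by
          rw [mul_pow]
          gcongr
          rcases max_choice P b with hm | hm <;> rw [hm]
          · exact le_add_of_nonneg_right (by positivity)
          · exact le_add_of_nonneg_left (by positivity)
      _ ≤ _ := by gcongr
  have hZ0 : (0 : ℝ) < (Z : ℝ) := by rw [hZ]; positivity
  have hsum := Finset.sum_le_sum (s := Finset.range Z)
    (fun i _ => hpt (((Z + i : ℕ) : ℝ) * φ))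
  rw [mom, ← hZ]
  refine (div_le_div_of_nonneg_right hsum hZ0.le).trans ?_
  rw [← Finset.mul_sum, Finset.sum_add_distrib, Finset.sum_const, Finset.card_range, nsmul_eq_mul,
    mul_div_assoc, add_div, mul_div_cancel_left₀ _ hZ0.ne']
  gcongr
  rw [← Finset.sum_div, Finset.sum_comm, div_right_comm, div_le_iff₀ hK0, Finset.sum_div]
  refine (Finset.sum_le_card_nsmul G _ (nc (prods suf) r + 1 / (2 * δ * (Z : ℝ))) fun w hw => ?_).trans ?_
  · have h1 := avg_le (prods suf) (Finset.card_pos.1 (by rw [card_prods hU (valid_right hv)]; positivity))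
      r Z (by rw [hZ]; positivity) ((w : ℝ) * φ) δ hδ (h w hw)
    rw [hTc] at h1
    refine le_of_eq_of_le ?_ h1
    congr 1
    refine Finset.sum_congr rfl fun i _ => ?_
    rw [mul_left_comm]
  · rw [nsmul_eq_mul, mul_comm]
    have h4 : (G.card : ℝ) ≤ K := by rw [← hKc]; exact_mod_cast Finset.card_le_card hG
    refine mul_le_mul_of_nonneg_left h4 ?_
    have := nc_nonneg (prods suf) r
    positivity

lemma half_pow_le {a b : ℕ} (h : b ≤ a) : (1 / 2 : ℝ) ^ a ≤ (1 / 2 : ℝ) ^ b :=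
  pow_le_pow_of_le_one (by norm_num) (by norm_num) h

lemma four_fifths {k b : ℕ} (h : 4 * b ≤ k) : (4 / 5 : ℝ) ^ k ≤ (1 / 2 : ℝ) ^ b := by
  refine (pow_le_pow_of_le_one (by norm_num) (by norm_num) h).trans ?_
  rw [pow_mul]
  exact pow_le_pow_left₀ (by norm_num) (by norm_num) b

lemma div_two_pow_le {x y : ℝ} {c d b : ℕ} (hx : x ≤ (2 : ℝ) ^ c) (hy : (2 : ℝ) ^ d ≤ y)
    (h : c + b ≤ d) : x / y ≤ (1 / 2 : ℝ) ^ b := by
  have hy0 : 0 < y := lt_of_lt_of_le (by positivity) hy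
  rw [div_le_iff₀ hy0, one_div, inv_pow, inv_mul_eq_div, le_div_iff₀ (by positivity)]
  calc x * (2 : ℝ) ^ b ≤ (2 : ℝ) ^ c * (2 : ℝ) ^ b := by gcongr
    _ = (2 : ℝ) ^ (c + b) := (pow_add _ _ _).symm
    _ ≤ (2 : ℝ) ^ d := pow_le_pow_right₀ (by norm_num) h
    _ ≤ y := hy

/-- Numerical conditions on the parameters. -/
structure Params (e L n Y0 gb N : ℕ) : Prop where
  rdvd : 16 ∣ 2 ^ L
  er : e ≤ 24 * 2 ^ L
  gbig : 32 * e * (14 * L + 2) + 100000 * 2 ^ L + 100000 ≤ gb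
  Ybig : 16 * 2 ^ (2 * L) * 2 ^ gb ≤ Y0
  Yup : Y0 ≤ 2 ^ (e * n)
  Nlow : Y0 ^ 3 ≤ N * 2 ^ gb
  Nhigh : N * 2 ^ gb ≤ 2 * Y0 ^ 3
  Npos : 0 < N

lemma combine {r' b ℓ : ℕ} {F x y z : ℝ} (hF : F ≤ (2 : ℝ) ^ (2 * (16 * r')) * (x + (y + z)))
    (hx : x ≤ (2 : ℝ) ^ (15 * r') * (1 / 2 : ℝ) ^ b) (hy : y ≤ (2 : ℝ) ^ (15 * r') * (1 / 2 : ℝ) ^ b)
    (hz : z ≤ (2 : ℝ) ^ (15 * r') * (1 / 2 : ℝ) ^ b)
    (hb : ℓ / 4000 + 47 * r' + 2 ≤ b) : F ≤ (1 / 2 : ℝ) ^ (ℓ / 4000) := by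
  refine hF.trans ?_
  calc (2 : ℝ) ^ (2 * (16 * r')) * (x + (y + z))
      ≤ (2 : ℝ) ^ (2 * (16 * r')) * (4 * ((2 : ℝ) ^ (15 * r') * (1 / 2 : ℝ) ^ b)) := by
        gcongr
        have : 0 ≤ (2 : ℝ) ^ (15 * r') * (1 / 2 : ℝ) ^ b := by positivity
        linarith
    _ = (2 : ℝ) ^ (47 * r' + 2) * (1 / 2 : ℝ) ^ b := by
        rw [pow_add, show 47 * r' = 2 * (16 * r') + 15 * r' by ring, pow_add]; ring
    _ ≤ (2 : ℝ) ^ (47 * r' + 2) * (1 / 2 : ℝ) ^ ((47 * r' + 2) + ℓ / 4000) := by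
        gcongr 1; exact half_pow_le (by omega)
    _ = _ := by rw [pow_add (1 / 2 : ℝ), ← mul_assoc, ← mul_pow]; norm_num

/-- Size facts shared by the two cases. -/
lemma size_facts {e L n Y0 gb N q m : ℕ} (hpar : Params e L n Y0 gb N)
    (hqN : q * q ≤ N) (hmN : m * m ≤ N) :
    0 < Y0 ∧ Nat.log 2 Y0 ≤ e * n ∧ gb + 4 ≤ Nat.log 2 Y0 ∧ 4 * 2 ^ L * Y0 * m ≤ N ∧
      m * 2 ^ gb ≤ Y0 ^ 2 ∧ q * q ≤ 2 * Y0 ^ 3 := by
  obtain ⟨r, hr⟩ : ∃ r, r = 2 ^ L := ⟨_, rfl⟩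
  have hrpos : 0 < r := hr ▸ Nat.two_pow_pos L
  obtain ⟨G, hG⟩ : ∃ G, G = 2 ^ gb := ⟨_, rfl⟩
  have hGpos : 0 < G := hG ▸ Nat.two_pow_pos gb
  have h2L : (2 : ℕ) ^ (2 * L) = r * r := by rw [hr, ← pow_add]; ring_nf
  have hYbig := hpar.Ybig
  have hlow := hpar.Nlow
  have hhigh := hpar.Nhigh
  rw [h2L, ← hG] at hYbig
  rw [← hG] at hlow hhigh
  have hYG : 16 * G ≤ Y0 := by
    refine le_trans ?_ hYbig
    exact Nat.mul_le_mul_right _ (Nat.le_mul_of_pos_right _ (Nat.mul_pos hrpos hrpos))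
  have hY0 : 0 < Y0 := by omega
  have hN16 : 16 * (r * r) * Y0 ^ 2 ≤ N := by
    refine Nat.le_of_mul_le_mul_right ?_ hGpos
    calc 16 * (r * r) * Y0 ^ 2 * G = (16 * (r * r) * G) * Y0 ^ 2 := by ring
      _ ≤ Y0 * Y0 ^ 2 := Nat.mul_le_mul_right _ hYbig
      _ = Y0 ^ 3 := by ring
      _ ≤ _ := hlow
  refine ⟨hY0, ?_, ?_, ?_, ?_, ?_⟩
  · exact (Nat.pow_le_pow_iff_right one_lt_two).1 ((Nat.pow_log_le_self 2 hY0.ne').trans hpar.Yup)
  · exact Nat.le_log_of_pow_le one_lt_two (by rw [pow_add, ← hG]; omega)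
  · rw [← hr]
    apply le_of_pow_le_pow_left₀ two_ne_zero (Nat.zero_le _)
    calc (4 * r * Y0 * m) ^ 2 = (16 * (r * r) * Y0 ^ 2) * (m * m) := by ring
      _ ≤ N * N := Nat.mul_le_mul hN16 hmN
      _ = N ^ 2 := (sq N).symm
  · rw [← hG]
    apply le_of_pow_le_pow_left₀ two_ne_zero (Nat.zero_le _)
    calc (m * G) ^ 2 = (m * m) * G * G := by ring
      _ ≤ N * G * G := by gcongr
      _ ≤ 2 * Y0 ^ 3 * G := Nat.mul_le_mul_right _ hhigh
      _ = Y0 ^ 3 * (2 * G) := by ring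
      _ ≤ Y0 ^ 3 * Y0 := Nat.mul_le_mul_left _ (by omega)
      _ = (Y0 ^ 2) ^ 2 := by ring
  · exact hqN.trans ((Nat.le_mul_of_pos_right N hGpos).trans hhigh)

/-- Facts about a split of the pool at suffix length `t`. -/
lemma split_facts {U : Finset ℕ} {e e1 L n Y0 : ℕ} {l : List (ℕ × ℕ)}
    (hp : GoodPool U e e1 L n Y0 l) (r t : ℕ) (ht : t ≤ n) :
    ∃ pre suf : List (ℕ × ℕ), pre ++ suf = l ∧ suf.length = t ∧
      (∀ w ∈ prods pre, Y0 ≤ w * 2 ^ (e * t) ∧ ∀ τ ∈ tup (prods suf) r,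
        (tval τ).natAbs * w ≤ 2 * r * Y0 ∧ (tval τ).natAbs ≤ r * 2 ^ (e * t)) := by
  have hlen : (l.drop (n - t)).length = t := by rw [List.length_drop, hp.len]; omega
  have happ := List.take_append_drop (n - t) l
  have hv : Valid U (l.take (n - t) ++ l.drop (n - t)) := by rw [happ]; exact hp.valid
  refine ⟨_, _, happ, hlen, fun w hw => ?_⟩
  have hsuf : ∀ v ∈ prods (l.drop (n - t)), v ≤ 2 ^ (e * t) := by
    intro v hv'
    have := (prods_bounds (lo := 0) (hi := 2 ^ e)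
      (fun p hp' => ⟨Nat.zero_le p, (hp.range p hp').2⟩) (valid_right hv) v hv').2
    rwa [← pow_mul, hlen] at this
  have hwv : ∀ v ∈ prods (l.drop (n - t)), Y0 ≤ w * v ∧ w * v ≤ 2 * Y0 := fun v hv' =>
    hp.bounds _ (happ ▸ mul_mem_prods hw hv')
  have hw0 : 0 < w := Nat.pos_of_ne_zero (prods_ne_zero hp.prime (valid_left hv) w hw)
  constructor
  · obtain ⟨v, hv'⟩ := Finset.card_pos.1
      (show 0 < (prods (l.drop (n - t))).card by rw [card_prods hp.prime (valid_right hv)]; positivity)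
    exact (hwv v hv').1.trans (Nat.mul_le_mul_left _ (hsuf v hv'))
  · intro τ hτ
    constructor
    · have h1 := abs_tval_le (H := 2 * Y0 / w)
        (fun v hv' => (Nat.le_div_iff_mul_le hw0).2 (by rw [mul_comm]; exact (hwv v hv').2)) hτ
      rw [Int.abs_eq_natAbs, Int.ofNat_le] at h1
      calc (tval τ).natAbs * w ≤ r * (2 * Y0 / w) * w := Nat.mul_le_mul_right _ h1
        _ = r * (2 * Y0 / w * w) := mul_assoc _ _ _
        _ ≤ r * (2 * Y0) := Nat.mul_le_mul_left _ (Nat.div_mul_le_self _ _)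
        _ = _ := by ring
    · have h1 := abs_tval_le hsuf hτ
      rw [Int.abs_eq_natAbs, Int.ofNat_le] at h1
      exact h1

lemma small_prod {r Y0 m N : ℕ} (hsmall : 4 * r * Y0 * m ≤ N) {s : ℤ} (hs : s.natAbs = m)
    (V : ℤ) (w : ℕ) (hVw : V.natAbs * w ≤ 2 * r * Y0) : 2 * |V * (w : ℤ) * s| ≤ (N : ℤ) := by
  rw [Int.abs_eq_natAbs, Int.natAbs_mul, Int.natAbs_mul, hs, Int.natAbs_natCast]
  have : 2 * (V.natAbs * w * m) ≤ N := le_trans (by nlinarith) hsmall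
  exact_mod_cast this

lemma final_step {x : ℝ} (hx0 : 0 ≤ x) {v ℓ k R : ℕ} (hx : x ≤ (1 / 2 : ℝ) ^ v)
    (hk : k ≤ 2 ^ (3 * (ℓ + 1))) (hk0 : 0 < k) (hR : 9 * (ℓ + 1) ≤ v * R) :
    x ^ R ≤ 1 / (k : ℝ) ^ 3 := by
  refine (pow_le_pow_left₀ hx0 hx R).trans ?_
  rw [← pow_mul]
  refine (half_pow_le hR).trans ?_
  have hk' : (0 : ℝ) < k := by exact_mod_cast hk0
  rw [one_div, inv_pow, ← one_div]
  refine one_div_le_one_div_of_le (by positivity) ?_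
  calc (k : ℝ) ^ 3 ≤ ((2 : ℝ) ^ (3 * (ℓ + 1))) ^ 3 := by gcongr; exact_mod_cast hk
    _ = _ := by rw [← pow_mul]; congr 1; ring

theorem freq_one {U : Finset ℕ} {e e1 L n Y0 gb N : ℕ} {l : List (ℕ × ℕ)}
    (hp : GoodPool U e e1 L n Y0 l) (hpar : Params e L n Y0 gb N)
    {h q m r r' G R : ℕ} {a s : ℤ} (heq : (h : ℤ) * q = a * N + s) (hs : s.natAbs = m) (hm : 0 < m)
    (hq : 0 < q) (hcop : IsCoprime a (q : ℤ)) (hqN : q * q ≤ N) (hmN : m * m ≤ N)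
    (hr : r = 2 ^ L) (hr' : r = 16 * r') (hG : G = 2 ^ gb) (hR : R = 144000)
    (hcase : m * G ≤ q * q) :
    mom l n r Y0 ((h : ℝ) / N) ^ R ≤ 1 / (((q * (m * G) : ℕ) : ℝ)) ^ 3 := by
  obtain ⟨hY0, hnyen, hnygb, hsmall, hXY, hqY⟩ := size_facts hpar hqN hmN
  rw [← hr] at hsmall
  rw [← hG] at hXY
  have hrpos : 0 < r := hr ▸ Nat.two_pow_pos L
  have hr'pos : 0 < r' := by omega
  have hGpos : 0 < G := hG ▸ Nat.two_pow_pos gb
  obtain ⟨ny, hny⟩ : ∃ ny, ny = Nat.log 2 Y0 := ⟨_, rfl⟩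
  rw [← hny] at hnyen hnygb
  have hny1 : 2 ^ ny ≤ Y0 := hny ▸ Nat.pow_log_le_self 2 hY0.ne'
  have hny2 : Y0 < 2 ^ (ny + 1) := hny ▸ Nat.lt_pow_succ_log_self one_lt_two Y0
  have hgb := hpar.gbig
  rw [← hr] at hgb
  have hNhigh := hpar.Nhigh
  rw [← hG] at hNhigh
  obtain ⟨X, hX⟩ : ∃ X, X = m * G := ⟨_, rfl⟩
  rw [← hX] at hXY hcase
  have hXpos : 0 < X := hX ▸ Nat.mul_pos hm hGpos
  have hGX : 2 ^ gb ≤ X := by rw [← hG, hX]; exact Nat.le_mul_of_pos_left _ hm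
  obtain ⟨ℓ, hℓ⟩ : ∃ ℓ, ℓ = Nat.log 2 q := ⟨_, rfl⟩
  have hℓ1 : 2 ^ ℓ ≤ q := hℓ ▸ Nat.pow_log_le_self 2 hq.ne'
  have hℓ2 : q < 2 ^ (ℓ + 1) := hℓ ▸ Nat.lt_pow_succ_log_self one_lt_two q
  have hℓg : gb < 2 * ℓ + 2 := by
    refine (Nat.pow_lt_pow_iff_right one_lt_two).1 ?_
    calc 2 ^ gb ≤ X := hGX
      _ ≤ q * q := hcase
      _ < 2 ^ (ℓ + 1) * 2 ^ (ℓ + 1) := Nat.mul_lt_mul_of_lt_of_lt hℓ2 hℓ2
      _ = _ := by rw [← pow_add]; congr 1; ring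
  have hℓy : 2 * ℓ < 3 * ny + 4 := by
    refine (Nat.pow_lt_pow_iff_right one_lt_two).1 ?_
    calc 2 ^ (2 * ℓ) = 2 ^ ℓ * 2 ^ ℓ := by rw [← pow_add]; congr 1; ring
      _ ≤ q * q := Nat.mul_le_mul hℓ1 hℓ1
      _ ≤ 2 * Y0 ^ 3 := hqY
      _ < 2 * (2 ^ (ny + 1)) ^ 3 := by gcongr
      _ = _ := by rw [← pow_mul, ← pow_succ']; congr 1; ring
  obtain ⟨t, ht⟩ : ∃ t, t = ℓ / (8 * e) := ⟨_, rfl⟩
  have he := hp.epos
  have htdiv : t * (8 * e) ≤ ℓ := ht ▸ Nat.div_mul_le_self _ _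
  have htlow : 14 * L + 2 ≤ t := ht ▸ (Nat.le_div_iff_mul_le (by omega)).2 (by
    have : (14 * L + 2) * (8 * e) * 4 = 32 * e * (14 * L + 2) := by ring
    omega)
  have htn : t ≤ n := by
    refine Nat.le_of_mul_le_mul_right ?_ (show 0 < 8 * e by omega)
    have : n * (8 * e) = 8 * (e * n) := by ring
    omega
  obtain ⟨pre, suf, happ, hlen, hw⟩ := split_facts hp r t htn
  have hv : Valid U (pre ++ suf) := by rw [happ]; exact hp.valid
  set G' := (prods pre).filter (fun w => ¬ q ^ 3 < Nat.gcd w q ^ 4) with hG'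
  have hbad : prods pre \ G' = (prods pre).filter (fun w => q ^ 3 < Nat.gcd w q ^ 4) := by
    ext w; simp only [hG', Finset.mem_sdiff, Finset.mem_filter, not_and, not_not]; tauto
  have hgood : ∀ w ∈ G', ∀ τ ∈ tup (prods suf) r, tval τ ≠ 0 → ∀ k : ℤ,
      1 / (2 * (q : ℝ)) ≤ |(tval τ : ℝ) * ((w : ℝ) * ((h : ℝ) / N)) - k| := by
    intro w hw' τ hτ hne k
    rw [hG', Finset.mem_filter, not_lt] at hw'
    obtain ⟨hwm, hg⟩ := hw'
    have hndvd : ¬ (q : ℤ) ∣ tval τ * (w : ℤ) := by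
      intro hd
      have hd' : q ∣ (tval τ).natAbs * w := by
        have := Int.natCast_dvd.1 hd
        rwa [Int.natAbs_mul, Int.natAbs_natCast] at this
      set V := (tval τ).natAbs with hV
      have h1 : q ∣ V * Nat.gcd w q := by
        rw [← Nat.gcd_mul_left]; exact Nat.dvd_gcd hd' (dvd_mul_left q V)
      have h2 : q ≤ V * Nat.gcd w q := Nat.le_of_dvd
        (Nat.mul_pos (Int.natAbs_pos.2 hne) (Nat.gcd_pos_of_pos_right _ hq)) h1
      have h3 : q ≤ V ^ 4 := by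
        refine Nat.le_of_mul_le_mul_right ?_ (show 0 < q ^ 3 by positivity)
        calc q * q ^ 3 = q ^ 4 := by ring
          _ ≤ (V * Nat.gcd w q) ^ 4 := Nat.pow_le_pow_left h2 4
          _ = V ^ 4 * Nat.gcd w q ^ 4 := mul_pow _ _ _
          _ ≤ V ^ 4 * q ^ 3 := Nat.mul_le_mul_left _ hg
      have h4 : 2 ^ ℓ ≤ 2 ^ (4 * L + 4 * (e * t)) := by
        calc 2 ^ ℓ ≤ V ^ 4 := hℓ1.trans h3
          _ ≤ (r * 2 ^ (e * t)) ^ 4 := Nat.pow_le_pow_left ((hw w hwm).2 τ hτ).2 4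
          _ = _ := by rw [hr, ← pow_add, ← pow_mul]; congr 1; ring
      have h5 := (Nat.pow_le_pow_iff_right one_lt_two).1 h4
      have : t * (8 * e) = 8 * (e * t) := by ring
      have : 14 * L + 2 ≤ e * (14 * L + 2) := Nat.le_mul_of_pos_left _ he
      have : 32 * e * (14 * L + 2) = 32 * (e * (14 * L + 2)) := by ring
      omega
    have := near_int_ndvd hq hpar.Npos heq hcop hndvd (small_prod hsmall hs _ _ ((hw w hwm).2 τ hτ).1) k
    rw [Int.cast_mul, Int.cast_natCast, mul_assoc] at this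
    exact this
  have hb := split_bound hp.prime hv G' (Finset.filter_subset _ _) r Y0 hrpos hY0 ((h : ℝ) / N)
    (1 / (2 * (q : ℝ))) (by positivity) hgood
  rw [happ, hp.len, hbad, show 2 * r = 2 * (16 * r') by rw [hr']] at hb
  have hu := bad_bound hp.prime hp.range hp.ratio he (valid_left hv) hq.ne'
  rw [← hℓ] at hu
  obtain ⟨u, hu'⟩ : ∃ u, u = ℓ / e := ⟨_, rfl⟩
  rw [← hu'] at hu
  have hur : ℓ < e * (u + 1) := hu' ▸ Nat.lt_mul_div_succ _ he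
  obtain ⟨b, hb'⟩ : ∃ b, b = ℓ / 3072 - 1 := ⟨_, rfl⟩
  have hPbound : ((((prods pre).filter (fun w => q ^ 3 < Nat.gcd w q ^ 4)).card : ℝ)
        / (2 : ℝ) ^ pre.length) ^ (2 * (16 * r')) ≤ (2 : ℝ) ^ (15 * r') * (1 / 2 : ℝ) ^ b := by
    rw [show 2 * (16 * r') = 32 * r' by ring, pow_mul]
    refine (pow_le_pow_left₀ (by positivity) hu r').trans ?_
    rw [mul_pow, ← pow_mul, ← pow_mul]
    have h1 : ℓ < 384 * (r' * u + r') := by
      have : e * (u + 1) ≤ 24 * (16 * r') * (u + 1) :=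
        Nat.mul_le_mul_right _ (hr' ▸ (hr ▸ hpar.er : e ≤ 24 * r))
      have : 24 * (16 * r') * (u + 1) = 384 * (r' * u + r') := by ring
      omega
    have h2 : (1 / 2 : ℝ) ^ (u * r') ≤ (2 : ℝ) ^ r' * (1 / 2 : ℝ) ^ b := by
      calc (1 / 2 : ℝ) ^ (u * r') = (2 : ℝ) ^ r' * (1 / 2 : ℝ) ^ (r' + u * r') := by
            rw [pow_add, ← mul_assoc, ← mul_pow]; norm_num
        _ ≤ _ := by gcongr 1; exact half_pow_le (by rw [mul_comm u]; omega)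
    calc (2 : ℝ) ^ (14 * r') * (1 / 2 : ℝ) ^ (u * r')
        ≤ (2 : ℝ) ^ (14 * r') * ((2 : ℝ) ^ r' * (1 / 2 : ℝ) ^ b) := by gcongr
      _ = _ := by rw [← mul_assoc, ← pow_add]; congr 2; ring
  have hone : (1 : ℝ) ≤ (2 : ℝ) ^ (15 * r') := one_le_pow₀ (by norm_num)
  have hcb : nc (prods suf) r ≤ (2 : ℝ) ^ (15 * r') * (1 / 2 : ℝ) ^ b := by
    refine (show nc (prods suf) r ≤ (4 / 5 : ℝ) ^ (r * (suf.length - 7 * L)) by
      rw [hr]; exact hp.coll suf (happ ▸ List.suffix_append pre suf)).trans ?_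
    rw [hlen]
    refine le_trans (four_fifths ?_) (le_mul_of_one_le_left (by positivity) hone)
    have h1 : ℓ < 8 * e * (t + 1) := ht ▸ Nat.lt_mul_div_succ _ (by omega)
    have h2 : e * (t + 1) ≤ 24 * r * (2 * t) := Nat.mul_le_mul (hr ▸ hpar.er : e ≤ 24 * r) (by omega)
    have h3 : t ≤ 2 * (t - 7 * L) := by omega
    have h4 : r * t ≤ r * (2 * (t - 7 * L)) := Nat.mul_le_mul_left _ h3
    have h5 : ℓ < 768 * (r * (t - 7 * L)) := by
      have : 8 * e * (t + 1) = 8 * (e * (t + 1)) := by ring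
      have : 24 * r * (2 * t) = 48 * (r * t) := by ring
      have : r * (2 * (t - 7 * L)) = 2 * (r * (t - 7 * L)) := by ring
      omega
    omega
  have hgeo : 1 / (2 * (1 / (2 * (q : ℝ))) * ((Y0 ^ 2 : ℕ) : ℝ))
      ≤ (2 : ℝ) ^ (15 * r') * (1 / 2 : ℝ) ^ b := by
    refine le_trans ?_ (le_mul_of_one_le_left (by positivity) hone)
    have hq' : (0 : ℝ) < q := by exact_mod_cast hq
    rw [show 1 / (2 * (1 / (2 * (q : ℝ))) * ((Y0 ^ 2 : ℕ) : ℝ)) = (q : ℝ) / ((Y0 ^ 2 : ℕ) : ℝ) by field_simp]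
    refine div_two_pow_le (c := ℓ + 1) (d := 2 * ny) (by exact_mod_cast hℓ2.le) ?_ (by omega)
    rw [show 2 * ny = ny * 2 by ring, pow_mul]
    push_cast
    gcongr
    exact_mod_cast hny1
  have hF := combine (ℓ := ℓ) hb hPbound hcb hgeo (by omega)
  have hqX : q * (m * G) ≤ 2 ^ (3 * (ℓ + 1)) := by
    rw [← hX]
    calc q * X ≤ q * (q * q) := Nat.mul_le_mul_left _ hcase
      _ ≤ 2 ^ (ℓ + 1) * (2 ^ (ℓ + 1) * 2 ^ (ℓ + 1)) := by gcongr
      _ = _ := by rw [← pow_add, ← pow_add]; congr 1; ring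
  exact final_step (mom_nonneg l n r Y0 _) hF hqX (Nat.mul_pos hq (Nat.mul_pos hm hGpos)) (by subst hR; omega)

theorem freq_two {U : Finset ℕ} {e e1 L n Y0 gb N : ℕ} {l : List (ℕ × ℕ)}
    (hp : GoodPool U e e1 L n Y0 l) (hpar : Params e L n Y0 gb N)
    {h q m r r' G R : ℕ} {a s : ℤ} (heq : (h : ℤ) * q = a * N + s) (hs : s.natAbs = m) (hm : 0 < m)
    (hq : 0 < q) (hcop : IsCoprime a (q : ℤ)) (hqN : q * q ≤ N) (hmN : m * m ≤ N)
    (hr : r = 2 ^ L) (hr' : r = 16 * r') (hG : G = 2 ^ gb) (hR : R = 144000)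
    (hcase : q * q < m * G) :
    mom l n r Y0 ((h : ℝ) / N) ^ R ≤ 1 / (((q * (m * G) : ℕ) : ℝ)) ^ 3 := by
  obtain ⟨hY0, hnyen, hnygb, hsmall, hXY, hqY⟩ := size_facts hpar hqN hmN
  rw [← hr] at hsmall
  rw [← hG] at hXY
  have hrpos : 0 < r := hr ▸ Nat.two_pow_pos L
  have hr'pos : 0 < r' := by omega
  have hGpos : 0 < G := hG ▸ Nat.two_pow_pos gb
  obtain ⟨ny, hny⟩ : ∃ ny, ny = Nat.log 2 Y0 := ⟨_, rfl⟩
  rw [← hny] at hnyen hnygb
  have hny1 : 2 ^ ny ≤ Y0 := hny ▸ Nat.pow_log_le_self 2 hY0.ne'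
  have hny2 : Y0 < 2 ^ (ny + 1) := hny ▸ Nat.lt_pow_succ_log_self one_lt_two Y0
  have hgb := hpar.gbig
  rw [← hr] at hgb
  have hNhigh := hpar.Nhigh
  rw [← hG] at hNhigh
  obtain ⟨X, hX⟩ : ∃ X, X = m * G := ⟨_, rfl⟩
  rw [← hX] at hXY hcase
  have hXpos : 0 < X := hX ▸ Nat.mul_pos hm hGpos
  have hGX : 2 ^ gb ≤ X := by rw [← hG, hX]; exact Nat.le_mul_of_pos_left _ hm
  obtain ⟨ℓ, hℓ⟩ : ∃ ℓ, ℓ = Nat.log 2 X := ⟨_, rfl⟩
  have hℓ1 : 2 ^ ℓ ≤ X := hℓ ▸ Nat.pow_log_le_self 2 hXpos.ne'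
  have hℓ2 : X < 2 ^ (ℓ + 1) := hℓ ▸ Nat.lt_pow_succ_log_self one_lt_two X
  have hℓg : gb ≤ ℓ := hℓ ▸ Nat.le_log_of_pow_le one_lt_two hGX
  have hℓy : ℓ < 2 * ny + 2 := by
    refine (Nat.pow_lt_pow_iff_right one_lt_two).1 ?_
    calc 2 ^ ℓ ≤ X := hℓ1
      _ ≤ Y0 ^ 2 := hXY
      _ < (2 ^ (ny + 1)) ^ 2 := by gcongr
      _ = _ := by rw [← pow_mul]; congr 1; ring
  have hq2 : q ≤ 2 ^ ((ℓ + 2) / 2) := by
    have h1 : q * q < 2 ^ (ℓ + 1) := hcase.trans hℓ2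
    by_contra hc
    push Not at hc
    have h2 := Nat.mul_le_mul hc.le hc.le
    rw [← pow_add] at h2
    have := Nat.pow_le_pow_right two_pos (show ℓ + 1 ≤ (ℓ + 2) / 2 + (ℓ + 2) / 2 by omega)
    omega
  obtain ⟨t, ht⟩ : ∃ t, t = ℓ / (4 * e) := ⟨_, rfl⟩
  have he := hp.epos
  have htdiv : t * (4 * e) ≤ ℓ := ht ▸ Nat.div_mul_le_self _ _
  have htlow : 14 * L + 2 ≤ t := ht ▸ (Nat.le_div_iff_mul_le (by omega)).2 (by
    have : (14 * L + 2) * (4 * e) * 8 = 32 * e * (14 * L + 2) := by ring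
    omega)
  have htn : t ≤ n := by
    refine Nat.le_of_mul_le_mul_right ?_ (show 0 < 4 * e by omega)
    have : n * (4 * e) = 4 * (e * n) := by ring
    omega
  obtain ⟨pre, suf, happ, hlen, hw⟩ := split_facts hp r t htn
  have hv : Valid U (pre ++ suf) := by rw [happ]; exact hp.valid
  set δ : ℝ := min (1 / (2 * (q : ℝ))) ((Y0 : ℝ) * m / ((2 : ℝ) ^ (e * t) * ((q : ℝ) * N))) with hδ
  have hq' : (0 : ℝ) < q := by exact_mod_cast hq
  have hN' : (0 : ℝ) < N := by exact_mod_cast hpar.Npos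
  have hY' : (0 : ℝ) < Y0 := by exact_mod_cast hY0
  have hm' : (0 : ℝ) < m := by exact_mod_cast hm
  have hδ0 : 0 < δ := lt_min (by positivity) (by positivity)
  have hgood : ∀ w ∈ prods pre, ∀ τ ∈ tup (prods suf) r, tval τ ≠ 0 → ∀ k : ℤ,
      δ ≤ |(tval τ : ℝ) * ((w : ℝ) * ((h : ℝ) / N)) - k| := by
    intro w hw' τ hτ hne k
    have hsm := small_prod hsmall hs _ _ ((hw w hw').2 τ hτ).1
    rw [← mul_assoc, show (tval τ : ℝ) * (w : ℝ) = ((tval τ * (w : ℤ) : ℤ) : ℝ) by push_cast; ring]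
    by_cases hd : (q : ℤ) ∣ tval τ * (w : ℤ)
    · refine (min_le_right _ _).trans (le_trans ?_ (near_int_dvd hq hpar.Npos heq hd hsm k))
      rw [mul_comm ((2 : ℝ) ^ (e * t)), ← div_div, div_le_iff₀ (by positivity), div_mul_eq_mul_div]
      refine div_le_div_of_nonneg_right ?_ (by positivity)
      have h1 : Y0 * m ≤ (tval τ * (w : ℤ) * s).natAbs * 2 ^ (e * t) := by
        rw [Int.natAbs_mul, Int.natAbs_mul, hs, Int.natAbs_natCast]
        have h2 : 1 ≤ (tval τ).natAbs := Int.natAbs_pos.2 hne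
        calc Y0 * m ≤ w * 2 ^ (e * t) * m := Nat.mul_le_mul_right _ (hw w hw').1
          _ ≤ (tval τ).natAbs * w * 2 ^ (e * t) * m := by
              gcongr; exact Nat.le_mul_of_pos_left _ h2
          _ = _ := by ring
      have h3 : ((Y0 * m : ℕ) : ℝ) ≤ (((tval τ * (w : ℤ) * s).natAbs * 2 ^ (e * t) : ℕ) : ℝ) := by
        exact_mod_cast h1
      push_cast [Nat.cast_natAbs] at h3 ⊢
      linarith
    · exact (min_le_left _ _).trans (near_int_ndvd hq hpar.Npos heq hcop hd hsm k)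
  have hb := split_bound hp.prime hv (prods pre) subset_rfl r Y0 hrpos hY0 ((h : ℝ) / N) δ hδ0 hgood
  rw [happ, hp.len, show 2 * r = 2 * (16 * r') by rw [hr']] at hb
  obtain ⟨b, hb'⟩ : ∃ b, b = ℓ / 3072 - 1 := ⟨_, rfl⟩
  have hone : (1 : ℝ) ≤ (2 : ℝ) ^ (15 * r') := one_le_pow₀ (by norm_num)
  have hPbound : (((prods pre \ prods pre).card : ℝ) / (2 : ℝ) ^ pre.length) ^ (2 * (16 * r'))
      ≤ (2 : ℝ) ^ (15 * r') * (1 / 2 : ℝ) ^ b := by
    rw [Finset.sdiff_self, Finset.card_empty, Nat.cast_zero, zero_div, zero_pow (by omega)]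
    positivity
  have hcb : nc (prods suf) r ≤ (2 : ℝ) ^ (15 * r') * (1 / 2 : ℝ) ^ b := by
    refine (show nc (prods suf) r ≤ (4 / 5 : ℝ) ^ (r * (suf.length - 7 * L)) by
      rw [hr]; exact hp.coll suf (happ ▸ List.suffix_append pre suf)).trans ?_
    rw [hlen]
    refine le_trans (four_fifths ?_) (le_mul_of_one_le_left (by positivity) hone)
    have h1 : ℓ < 4 * e * (t + 1) := ht ▸ Nat.lt_mul_div_succ _ (by omega)
    have h2 : e * (t + 1) ≤ 24 * r * (2 * t) := Nat.mul_le_mul (hr ▸ hpar.er : e ≤ 24 * r) (by omega)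
    have h3 : t ≤ 2 * (t - 7 * L) := by omega
    have h4 : r * t ≤ r * (2 * (t - 7 * L)) := Nat.mul_le_mul_left _ h3
    have h5 : ℓ < 384 * (r * (t - 7 * L)) := by
      have : 4 * e * (t + 1) = 4 * (e * (t + 1)) := by ring
      have : 24 * r * (2 * t) = 48 * (r * t) := by ring
      have : r * (2 * (t - 7 * L)) = 2 * (r * (t - 7 * L)) := by ring
      omega
    omega
  have hgeo : 1 / (2 * δ * ((Y0 ^ 2 : ℕ) : ℝ)) ≤ (2 : ℝ) ^ (15 * r') * (1 / 2 : ℝ) ^ b := by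
    refine le_trans ?_ (le_mul_of_one_le_left (by positivity) hone)
    have hX' : (0 : ℝ) < (X : ℝ) := by exact_mod_cast hXpos
    have hXY' : (X : ℝ) ≤ (Y0 : ℝ) ^ 2 := by exact_mod_cast hXY
    have hNh : (N : ℝ) * (G : ℝ) ≤ 2 * (Y0 : ℝ) ^ 3 := by exact_mod_cast hNhigh
    have h2et : (0 : ℝ) < (2 : ℝ) ^ (e * t) := by positivity
    refine le_trans (b := (2 : ℝ) * ((2 : ℝ) ^ (e * t) * q) / (X : ℝ)) ?_ ?_
    · have hinv : 1 / δ ≤ 2 * (q : ℝ) + (2 : ℝ) ^ (e * t) * ((q : ℝ) * N) / ((Y0 : ℝ) * m) := by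
        rcases min_choice (1 / (2 * (q : ℝ))) ((Y0 : ℝ) * m / ((2 : ℝ) ^ (e * t) * ((q : ℝ) * N))) with hc | hc
        · rw [hδ, hc, one_div_one_div]; exact le_add_of_nonneg_right (by positivity)
        · rw [hδ, hc, one_div_div]; exact le_add_of_nonneg_left (by positivity)
      have h1 : 1 / (2 * δ * ((Y0 ^ 2 : ℕ) : ℝ)) = (1 / δ) / (2 * (Y0 : ℝ) ^ 2) := by
        push_cast; field_simp
      rw [h1]
      refine (div_le_div_of_nonneg_right hinv (by positivity)).trans ?_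
      rw [add_div, show (2 : ℝ) * ((2 : ℝ) ^ (e * t) * q) / (X : ℝ)
        = (2 : ℝ) ^ (e * t) * q / X + (2 : ℝ) ^ (e * t) * q / X by ring]
      refine add_le_add ?_ ?_
      · rw [mul_div_mul_left _ _ two_ne_zero, div_le_div_iff₀ (by positivity) hX']
        have : (1 : ℝ) ≤ (2 : ℝ) ^ (e * t) := one_le_pow₀ (by norm_num)
        calc (q : ℝ) * X ≤ (q : ℝ) * (Y0 : ℝ) ^ 2 := by gcongr
          _ ≤ (2 : ℝ) ^ (e * t) * q * (Y0 : ℝ) ^ 2 := by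
              gcongr; exact le_mul_of_one_le_left hq'.le this
      · rw [div_div, div_le_div_iff₀ (by positivity) hX', hX]
        push_cast
        calc (2 : ℝ) ^ (e * t) * ((q : ℝ) * N) * ((m : ℝ) * G)
            = (2 : ℝ) ^ (e * t) * q * m * ((N : ℝ) * G) := by ring
          _ ≤ (2 : ℝ) ^ (e * t) * q * m * (2 * (Y0 : ℝ) ^ 3) := by gcongr
          _ = _ := by ring
    · refine div_two_pow_le (c := e * t + (ℓ + 2) / 2 + 1) (d := ℓ) ?_ (by exact_mod_cast hℓ1) ?_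
      · rw [pow_succ, pow_add, mul_comm ((2 : ℝ) ^ (e * t) * (2 : ℝ) ^ ((ℓ + 2) / 2))]
        gcongr
        exact_mod_cast hq2
      · have : 4 * (e * t) ≤ ℓ := by
            have : t * (4 * e) = 4 * (e * t) := by ring
            omega
        omega
  have hF := combine (ℓ := ℓ) hb hPbound hcb hgeo (by omega)
  have hqle : q ≤ X := (Nat.le_mul_of_pos_left q hq).trans hcase.le
  have hqX : q * (m * G) ≤ 2 ^ (3 * (ℓ + 1)) := by
    rw [← hX]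
    calc q * X ≤ 2 ^ (ℓ + 1) * 2 ^ (ℓ + 1) := Nat.mul_le_mul (hqle.trans hℓ2.le) hℓ2.le
      _ ≤ _ := by rw [← pow_add]; exact Nat.pow_le_pow_right two_pos (by omega)
  exact final_step (mom_nonneg l n r Y0 _) hF hqX (Nat.mul_pos hq (Nat.mul_pos hm hGpos)) (by subst hR; omega)

/-- The main estimate for one frequency. -/
theorem freq_bound {U : Finset ℕ} {e e1 L n Y0 gb N R : ℕ} {l : List (ℕ × ℕ)}
    (hp : GoodPool U e e1 L n Y0 l) (hpar : Params e L n Y0 gb N) (hR : R = 144000)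
    {h q m : ℕ} {a s : ℤ} (heq : (h : ℤ) * q = a * N + s) (hs : s.natAbs = m) (hm : 0 < m)
    (hq : 0 < q) (hqN : q * q ≤ N) (hmN : m * m ≤ N) (hcop : IsCoprime a (q : ℤ)) :
    mom l n (2 ^ L) Y0 ((h : ℝ) / N) ^ R ≤ 1 / (((q * (m * 2 ^ gb) : ℕ) : ℝ)) ^ 3 := by
  obtain ⟨r', hr'⟩ := hpar.rdvd
  rcases le_or_gt (m * 2 ^ gb) (q * q) with hcase | hcase
  · exact freq_one hp hpar heq hs hm hq hcop hqN hmN rfl hr' rfl hR hcase
  · exact freq_two hp hpar heq hs hm hq hcop hqN hmN rfl hr' rfl hR hcase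

end Vale.Agent.P012.Full
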