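import Vale.Agent.P012.Full.Recursion
import Mathlib.Data.Nat.PrimeFin
import Mathlib.Data.Nat.Log

namespace Vale.Agent.P012.Full

open Finset

/-- Number of primes dividing both `w` and `q`. -/
def commonB (q w : ℕ) : ℕ := (w.primeFactors.filter (fun p => p ∣ q)).card

lemma commonB_mul {q p y : ℕ} (hp : p.Prime) (_hy : y ≠ 0) (hpy : ¬ p ∣ y) :
    commonB q (p * y) = (if p ∣ q then 1 else 0) + commonB q y := by
  have hcop : p.Coprime y := hp.coprime_iff_not_dvd.2 hpy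
  rw [commonB, hcop.primeFactors_mul, hp.primeFactors, Finset.filter_union,
    Finset.card_union_of_disjoint, Finset.filter_singleton]
  · split_ifs <;> simp [commonB]
  · rw [Finset.disjoint_left]
    intro x hx hx'
    simp only [Finset.mem_filter, Finset.mem_singleton] at hx hx'
    obtain ⟨rfl, -⟩ := hx
    exact hpy (Nat.dvd_of_mem_primeFactors hx'.1)

lemma prods_ne_zero {U : Finset ℕ} (hU : ∀ p ∈ U, p.Prime) {l : List (ℕ × ℕ)} (hl : Valid U l) :
    ∀ y ∈ prods l, y ≠ 0 := by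
  intro y hy
  have := (prods_bounds (lo := 1) (hi := U.sup id)
    (fun p hp => ⟨(hU p hp).one_le, Finset.le_sup (f := id) hp⟩) hl y hy).1
  rw [one_pow] at this
  omega

lemma gcd_le_pow {U : Finset ℕ} (hU : ∀ p ∈ U, p.Prime) {e : ℕ} (he : ∀ p ∈ U, p ≤ 2 ^ e) (q : ℕ) :
    ∀ {l : List (ℕ × ℕ)}, Valid U l → ∀ y ∈ prods l, Nat.gcd y q ≤ 2 ^ (e * commonB q y)
  | [], _, y, hy => by simp [prods] at hy; simp [hy, commonB]
  | x :: l, h, y, hy => by
    have key : ∀ p : ℕ, p ∈ U → p ∉ slotPrimes l → ∀ z ∈ prods l,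
        Nat.gcd (p * z) q ≤ 2 ^ (e * commonB q (p * z)) := by
      intro p hpU hpl z hz
      have hp := hU p hpU
      have hz0 := prods_ne_zero hU h.2.2.2.2.2 z hz
      rw [commonB_mul hp hz0 fun hd => hpl (prime_dvd_prods hU h.2.2.2.2.2 z hz p hp hd)]
      have ih := gcd_le_pow hU he q h.2.2.2.2.2 z hz
      by_cases hpq : p ∣ q
      · rw [if_pos hpq, mul_add, mul_one, pow_add]
        refine le_trans ?_ (Nat.mul_le_mul (he p hpU) ih)
        refine Nat.le_of_dvd (Nat.mul_pos hp.pos (Nat.gcd_pos_of_pos_left _ (by omega))) ?_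
        refine (Nat.gcd_mul_left_dvd_mul_gcd q p z).trans ?_
        exact Nat.mul_dvd_mul (Nat.gcd_dvd_left p q) dvd_rfl
      · rw [if_neg hpq, zero_add]
        rwa [Nat.Coprime.gcd_mul_left_cancel z (hp.coprime_iff_not_dvd.2 hpq)]
    simp only [prods, Finset.mem_union, Finset.mem_image] at hy
    rcases hy with ⟨z, hz, rfl⟩ | ⟨z, hz, rfl⟩
    · exact key _ h.1 h.2.2.2.1 z hz
    · exact key _ h.2.1 h.2.2.2.2.1 z hz

lemma sum_weight {U : Finset ℕ} (hU : ∀ p ∈ U, p.Prime) (q : ℕ) :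
    ∀ {l : List (ℕ × ℕ)}, Valid U l →
      ∑ y ∈ prods l, (3 / 2 : ℝ) ^ commonB q y
        ≤ (2 : ℝ) ^ l.length * (5 / 4 : ℝ) ^ ((slotPrimes l).filter (fun p => p ∣ q)).card
  | [], _ => by simp [prods, slotPrimes, commonB]
  | x :: l, h => by
    have ih := sum_weight hU q h.2.2.2.2.2
    have hone : ∀ p : ℕ, p ∈ U → p ∉ slotPrimes l →
        ∑ y ∈ (prods l).image (fun y => p * y), (3 / 2 : ℝ) ^ commonB q y
          = (3 / 2 : ℝ) ^ (if p ∣ q then 1 else 0) * ∑ y ∈ prods l, (3 / 2 : ℝ) ^ commonB q y := by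
      intro p hpU hpl
      rw [Finset.sum_image (fun a _ b _ hab => Nat.eq_of_mul_eq_mul_left (hU _ hpU).pos hab),
        Finset.mul_sum]
      refine Finset.sum_congr rfl fun y hy => ?_
      rw [← pow_add, commonB_mul (hU _ hpU) (prods_ne_zero hU h.2.2.2.2.2 y hy)
        fun hd => hpl (prime_dvd_prods hU h.2.2.2.2.2 y hy p (hU _ hpU) hd)]
    rw [prods, Finset.sum_union (prods_cons_disjoint hU h), hone _ h.1 h.2.2.2.1,
      hone _ h.2.1 h.2.2.2.2.1, ← add_mul]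
    have h1 : ((3 / 2 : ℝ) ^ (if x.1 ∣ q then 1 else 0) + (3 / 2 : ℝ) ^ (if x.2 ∣ q then 1 else 0))
        ≤ 2 * ((5 / 4 : ℝ) ^ (if x.1 ∣ q then 1 else 0) * (5 / 4 : ℝ) ^ (if x.2 ∣ q then 1 else 0)) := by
      split_ifs <;> norm_num
    have hcount : ((slotPrimes (x :: l)).filter (fun p => p ∣ q)).card =
        (if x.1 ∣ q then 1 else 0) + (if x.2 ∣ q then 1 else 0)
          + ((slotPrimes l).filter (fun p => p ∣ q)).card := by
      rw [Finset.card_filter, Finset.card_filter, slotPrimes, Finset.sum_insert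
        (by rw [Finset.mem_insert, not_or]; exact ⟨h.2.2.1, h.2.2.2.1⟩),
        Finset.sum_insert h.2.2.2.2.1, add_assoc]
    refine (mul_le_mul h1 ih (Finset.sum_nonneg fun _ _ => by positivity) (by positivity)).trans_eq ?_
    rw [hcount, List.length_cons, pow_add (5 / 4 : ℝ), pow_add (5 / 4 : ℝ), pow_succ (2 : ℝ)]
    ring

/-- Few products share a large part with `q`. -/
theorem bad_bound {U : Finset ℕ} (hU : ∀ p ∈ U, p.Prime) {e1 e : ℕ}
    (hlo : ∀ p ∈ U, 2 ^ e1 ≤ p ∧ p ≤ 2 ^ e) (he : 4 * e ≤ 5 * e1) (he0 : 0 < e)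
    {l : List (ℕ × ℕ)} (hl : Valid U l) {q : ℕ} (hq : q ≠ 0) :
    ((((prods l).filter (fun w => q ^ 3 < Nat.gcd w q ^ 4)).card : ℝ) / (2 : ℝ) ^ l.length) ^ 32
      ≤ (2 : ℝ) ^ 14 * (1 / 2 : ℝ) ^ (Nat.log 2 q / e) := by
  classical
  set bad := (prods l).filter (fun w => q ^ 3 < Nat.gcd w q ^ 4) with hbad
  rcases bad.eq_empty_or_nonempty with h0 | hne
  · rw [h0]; simp
  set ℓ := Nat.log 2 q with hℓ
  set u := ℓ / e with hu
  obtain ⟨w0, hw0, hmin⟩ := Finset.exists_min_image bad (commonB q) hne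
  set h := ((slotPrimes l).filter (fun p => p ∣ q)).card with hh
  have hB : 3 * u ≤ 4 * commonB q w0 := by
    have h1 := (Finset.mem_filter.1 hw0).2
    have h2 := gcd_le_pow hU (fun p hp => (hlo p hp).2) q hl w0 (Finset.mem_filter.1 hw0).1
    have h3 : 2 ^ (3 * ℓ) < 2 ^ (4 * (e * commonB q w0)) := by
      calc 2 ^ (3 * ℓ) = (2 ^ ℓ) ^ 3 := by rw [← pow_mul, mul_comm]
        _ ≤ q ^ 3 := Nat.pow_le_pow_left (Nat.pow_log_le_self 2 hq) 3
        _ < Nat.gcd w0 q ^ 4 := h1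
        _ ≤ (2 ^ (e * commonB q w0)) ^ 4 := Nat.pow_le_pow_left h2 4
        _ = _ := by rw [← pow_mul, mul_comm (e * commonB q w0) 4]
    have h4 := (Nat.pow_lt_pow_iff_right one_lt_two).1 h3
    have h5 : u * e ≤ ℓ := Nat.div_mul_le_self _ _
    by_contra hc
    push Not at hc
    have : 4 * commonB q w0 * e ≤ (3 * u) * e := Nat.mul_le_mul_right _ hc.le
    nlinarith
  have hh4 : 4 * h ≤ 5 * (u + 1) := by
    have h1 : 2 ^ (e1 * h) ≤ q := by
      rw [pow_mul]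
      refine le_trans (Finset.pow_card_le_prod _ _ _ fun p hp => (hlo p (slotPrimes_subset hl (Finset.mem_filter.1 hp).1)).1) ?_
      exact Nat.le_of_dvd (by omega) (Finset.prod_primes_dvd _
        (fun p hp => (hU p (slotPrimes_subset hl (Finset.mem_filter.1 hp).1)).prime)
        (fun p hp => (Finset.mem_filter.1 hp).2))
    have h2 : e1 * h < ℓ + 1 := (Nat.pow_lt_pow_iff_right one_lt_two).1
      (lt_of_le_of_lt h1 (Nat.lt_pow_succ_log_self one_lt_two q))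
    have h3 : ℓ < e * (u + 1) := Nat.lt_mul_div_succ _ he0
    by_contra hc
    push Not at hc
    have : 5 * (u + 1) * e ≤ 4 * h * e := Nat.mul_le_mul_right _ hc.le
    have : 4 * e * h ≤ 5 * e1 * h := Nat.mul_le_mul_right _ he
    nlinarith
  set P : ℝ := (bad.card : ℝ) / (2 : ℝ) ^ l.length with hP
  have hP0 : 0 ≤ P := by positivity
  have h1 : P * (3 / 2 : ℝ) ^ commonB q w0 ≤ (5 / 4 : ℝ) ^ h := by
    rw [hP, div_mul_eq_mul_div, div_le_iff₀ (by positivity), mul_comm ((5 / 4 : ℝ) ^ h)]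
    refine le_trans ?_ (sum_weight hU q hl)
    calc (bad.card : ℝ) * (3 / 2 : ℝ) ^ commonB q w0 = ∑ _y ∈ bad, (3 / 2 : ℝ) ^ commonB q w0 := by simp
      _ ≤ ∑ y ∈ bad, (3 / 2 : ℝ) ^ commonB q y :=
          Finset.sum_le_sum fun y hy => pow_le_pow_right₀ (by norm_num) (hmin y hy)
      _ ≤ _ := Finset.sum_le_sum_of_subset_of_nonneg (Finset.filter_subset _ _) (fun _ _ _ => by positivity)
  have h4 : P ^ 4 * (27 / 8 : ℝ) ^ u ≤ (3125 / 1024 : ℝ) ^ u * (3125 / 1024 : ℝ) := by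
    calc P ^ 4 * (27 / 8 : ℝ) ^ u = P ^ 4 * (3 / 2 : ℝ) ^ (3 * u) := by rw [pow_mul]; norm_num
      _ ≤ P ^ 4 * (3 / 2 : ℝ) ^ (4 * commonB q w0) := by gcongr; norm_num
      _ = (P * (3 / 2 : ℝ) ^ commonB q w0) ^ 4 := by rw [mul_pow, ← pow_mul, mul_comm 4]
      _ ≤ ((5 / 4 : ℝ) ^ h) ^ 4 := by gcongr
      _ ≤ (5 / 4 : ℝ) ^ (5 * (u + 1)) := by
          rw [← pow_mul]; exact pow_le_pow_right₀ (by norm_num) (by omega)
      _ = _ := by rw [pow_mul, pow_succ]; norm_num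
  have h5 : P ^ 4 ≤ (905481 / 1000000 : ℝ) ^ u * (3125 / 1024 : ℝ) := by
    refine le_of_mul_le_mul_right (h4.trans ?_) (show (0 : ℝ) < (27 / 8 : ℝ) ^ u by positivity)
    rw [mul_right_comm, ← mul_pow]
    gcongr
    norm_num
  calc P ^ 32 = (P ^ 4) ^ 8 := by ring
    _ ≤ ((905481 / 1000000 : ℝ) ^ u * (3125 / 1024 : ℝ)) ^ 8 := by gcongr
    _ = ((905481 / 1000000 : ℝ) ^ 8) ^ u * (3125 / 1024 : ℝ) ^ 8 := by
        rw [mul_pow, ← pow_mul, ← pow_mul, mul_comm u 8]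
    _ ≤ (1 / 2 : ℝ) ^ u * (2 : ℝ) ^ 14 := by gcongr <;> norm_num
    _ = _ := mul_comm _ _

end Vale.Agent.P012.Full
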