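import Vale.Agent.P012.Full.Core
import Mathlib.Data.Rat.Defs
import Mathlib.Algebra.Order.Field.Rat
import Mathlib.Data.Nat.Log

namespace Vale.Agent.P012.Full

open Finset

/-- `x` is a sum of at most `k` divisors of `M`. -/
def Rep (M k x : ℕ) : Prop := ∃ F : List ℕ, F.length ≤ k ∧ (∀ d ∈ F, d ∣ M) ∧ F.sum = x

lemma Rep.mono {M M' k k' x : ℕ} (h : Rep M k x) (hM : M ∣ M') (hk : k ≤ k') : Rep M' k' x := by
  obtain ⟨F, h1, h2, h3⟩ := h
  exact ⟨F, h1.trans hk, fun d hd => (h2 d hd).trans hM, h3⟩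

lemma Rep.add {M k k' x y : ℕ} (h : Rep M k x) (h' : Rep M k' y) : Rep M (k + k') (x + y) := by
  obtain ⟨F, h1, h2, h3⟩ := h
  obtain ⟨G, g1, g2, g3⟩ := h'
  refine ⟨F ++ G, by simp; omega, fun d hd => ?_, by simp [h3, g3]⟩
  rcases List.mem_append.1 hd with h | h
  · exact h2 d h
  · exact g2 d h

lemma Rep.scale {M k x : ℕ} (h : Rep M k x) (c : ℕ) : Rep (c * M) k (c * x) := by
  obtain ⟨F, h1, h2, h3⟩ := h
  refine ⟨F.map (fun d => c * d), by simpa using h1, fun d hd => ?_, by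
    rw [List.sum_map_mul_left, List.map_id', h3]⟩
  obtain ⟨d', hd', rfl⟩ := List.mem_map.1 hd
  exact Nat.mul_dvd_mul_left c (h2 d' hd')

lemma split_mod {V σ x : ℕ} (hx : V ≤ x) :
    V + (x - V) % 2 ^ σ + 2 ^ σ * ((x - V) / 2 ^ σ) = x := by
  have := Nat.mod_add_div (x - V) (2 ^ σ)
  omega

/-- Extending the covered range by a power of two per step. -/
theorem rep_range {M V k s : ℕ} (hc : Cover M V k) (hs : 2 * 2 ^ s ≤ V) :
    ∀ J x, V ≤ x → x < 2 ^ (s * J) * (4 * V) → Rep (2 ^ (s * (J + 1)) * M) ((J + 2) * k) x := by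
  intro J
  induction J with
  | zero =>
    intro x h1 h2
    have h3 : Rep M k x := hc x h1 (by simpa using h2)
    exact h3.mono (Dvd.intro_left _ rfl) (by omega)
  | succ J ih =>
    intro x h1 h2
    rcases lt_or_ge x (4 * V) with h | h
    · have h3 : Rep M k x := hc x h1 h
      exact h3.mono (Dvd.intro_left _ rfl) (Nat.le_mul_of_pos_left _ (by omega))
    · have hV : 0 < V := by have := Nat.two_pow_pos s; omega
      rcases le_or_gt (2 ^ s * V + 2 * V) x with hbig | hsmall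
      · have hv : Rep M k (V + (x - V) % 2 ^ s) := hc _ (Nat.le_add_right _ _) (by
          have := Nat.mod_lt (x - V) (Nat.two_pow_pos s); omega)
        have hx1lo : V ≤ (x - V) / 2 ^ s := by
          rw [Nat.le_div_iff_mul_le (Nat.two_pow_pos s), mul_comm]; omega
        have hx1hi : (x - V) / 2 ^ s < 2 ^ (s * J) * (4 * V) := by
          rw [Nat.div_lt_iff_lt_mul (Nat.two_pow_pos s)]
          calc x - V ≤ x := Nat.sub_le _ _
            _ < 2 ^ (s * (J + 1)) * (4 * V) := h2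
            _ = _ := by rw [mul_add, mul_one, pow_add]; ring
        have hB := (ih _ hx1lo hx1hi).scale (2 ^ s)
        have he : 2 ^ s * (2 ^ (s * (J + 1)) * M) = 2 ^ (s * (J + 1 + 1)) * M := by
          rw [← mul_assoc, ← pow_add]; ring_nf
        rw [he] at hB
        have := (hv.mono (Dvd.intro_left _ rfl) le_rfl).add hB
        rw [split_mod h1] at this
        exact this.mono dvd_rfl (by rw [show (J + 1 + 2) * k = k + (J + 2) * k by ring])
      · obtain ⟨σ, hσ⟩ : ∃ σ, σ = Nat.log 2 ((x - 2 * V) / V) := ⟨_, rfl⟩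
        have hq : 2 ≤ (x - 2 * V) / V := (Nat.le_div_iff_mul_le hV).2 (by omega)
        have hlo : 2 ^ σ * V ≤ x - 2 * V :=
          le_trans (Nat.mul_le_mul_right _ (hσ ▸ Nat.pow_log_le_self 2 (by omega)))
            (Nat.div_mul_le_self _ _)
        have hhi : x - 2 * V < 2 ^ (σ + 1) * V := by
          have := Nat.lt_pow_succ_log_self one_lt_two ((x - 2 * V) / V)
          rw [← hσ, Nat.div_lt_iff_lt_mul hV] at this
          exact this
        have hσs : σ ≤ s := by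
          have hh : 2 ^ σ * V < 2 ^ s * V := by omega
          exact ((Nat.pow_lt_pow_iff_right one_lt_two).1 (Nat.lt_of_mul_lt_mul_right hh)).le
        have h2σ : 2 ^ σ ≤ 2 ^ s := Nat.pow_le_pow_right two_pos hσs
        have hv : Rep M k (V + (x - V) % 2 ^ σ) := hc _ (Nat.le_add_right _ _) (by
          have := Nat.mod_lt (x - V) (Nat.two_pow_pos σ); omega)
        have hx1lo : V ≤ (x - V) / 2 ^ σ := by
          rw [Nat.le_div_iff_mul_le (Nat.two_pow_pos σ), mul_comm]; omega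
        have hx1hi : (x - V) / 2 ^ σ < 4 * V := by
          rw [Nat.div_lt_iff_lt_mul (Nat.two_pow_pos σ)]
          have h5 : 2 ^ (σ + 1) * V = 2 * (2 ^ σ * V) := by rw [pow_succ]; ring
          have h6 : V ≤ 2 ^ σ * V := Nat.le_mul_of_pos_left _ (Nat.two_pow_pos _)
          have h7 : 4 * V * 2 ^ σ = 4 * (2 ^ σ * V) := by ring
          omega
        have hB : Rep (2 ^ σ * M) k (2 ^ σ * ((x - V) / 2 ^ σ)) :=
          (show Rep M k _ from hc _ hx1lo hx1hi).scale (2 ^ σ)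
        have hd : 2 ^ σ * M ∣ 2 ^ (s * (J + 1 + 1)) * M :=
          Nat.mul_dvd_mul_right (pow_dvd_pow _ (hσs.trans (Nat.le_mul_of_pos_right _ (by omega)))) _
        have := (hv.mono (Dvd.intro_left _ rfl) le_rfl).add (hB.mono hd le_rfl)
        rw [split_mod h1] at this
        exact this.mono dvd_rfl (by rw [show (J + 1 + 2) * k = k + k + (J + 1) * k by ring]; omega)

/-- Sum of reciprocals of a list. -/
def recip (l : List ℕ) : ℚ := (l.map (fun i : ℕ => (1 : ℚ) / i)).sum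

lemma greedy_step {r B : ℕ} (hr : 0 < r) (hrB : r < B) :
    ∃ n r' : ℕ, 2 ≤ n ∧ n ≤ B ∧ B ≤ n * r ∧ r' < r ∧ r' < B * n ∧ r' * 2 ≤ B * n ∧
      (r : ℚ) / B = 1 / (n : ℚ) + (r' : ℚ) / ((B * n : ℕ) : ℚ) := by
  obtain ⟨n, hn⟩ : ∃ n, n = (B - 1) / r + 1 := ⟨_, rfl⟩
  have h1 := Nat.div_add_mod (B - 1) r
  have h2 := Nat.mod_lt (B - 1) hr
  have h3 : n * r = r * ((B - 1) / r) + r := by rw [hn]; ring
  have hlo : B ≤ n * r := by omega
  have hhi : n * r < B + r := by omega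
  have hn2 : 2 ≤ n := by
    have : 1 * r < n * r := by omega
    exact Nat.lt_of_mul_lt_mul_right this
  have hnB : n ≤ B := by
    have := Nat.div_le_self (B - 1) r
    omega
  have hBn : 2 * B ≤ B * n := by rw [mul_comm 2]; exact Nat.mul_le_mul_left _ hn2
  refine ⟨n, n * r - B, hn2, hnB, hlo, by omega, by omega, by omega, ?_⟩
  have hB0 : (B : ℚ) ≠ 0 := by exact_mod_cast (show B ≠ 0 by omega)
  have hn0 : (n : ℚ) ≠ 0 := by exact_mod_cast (show n ≠ 0 by omega)
  rw [Nat.cast_sub hlo]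
  push_cast
  field_simp
  ring

/-- The greedy algorithm squares the denominator in every step. -/
lemma greedy_iter (T : ℕ) : ∀ i r B K : ℕ, 0 < B → r < B → B ≤ T * T → r * 2 ^ K ≤ B →
    ∃ (ns : List ℕ) (r' B' : ℕ), ns.length ≤ i ∧ (∀ n ∈ ns, 0 < n) ∧ r' ≤ r ∧ r' < B' ∧
      B' ≤ T * T ∧ (r : ℚ) / B = recip ns + (r' : ℚ) / B' ∧
      (r' = 0 ∨ T ≤ B' ∨ r' * 2 ^ (2 ^ i * K) ≤ B') := by
  intro i
  induction i with
  | zero =>
    intro r B K hB hrB hBT hK
    exact ⟨[], r, B, le_rfl, by simp, le_rfl, hrB, hBT, by simp [recip], Or.inr (Or.inr (by simpa using hK))⟩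
  | succ i ih =>
    intro r B K hB hrB hBT hK
    rcases Nat.eq_zero_or_pos r with h0 | h0
    · exact ⟨[], r, B, Nat.zero_le _, by simp, le_rfl, hrB, hBT, by simp [recip], Or.inl h0⟩
    rcases le_or_gt T B with hT | hT
    · exact ⟨[], r, B, Nat.zero_le _, by simp, le_rfl, hrB, hBT, by simp [recip], Or.inr (Or.inl hT)⟩
    obtain ⟨n, r1, hn2, hnB, hlo, hr1, hr1B, -, heq⟩ := greedy_step h0 hrB
    have hK' : r1 * 2 ^ (2 * K) ≤ B * n := by
      refine Nat.le_of_mul_le_mul_left ?_ h0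
      calc r * (r1 * 2 ^ (2 * K)) ≤ r * (r * 2 ^ (2 * K)) := by gcongr
        _ = (r * 2 ^ K) * (r * 2 ^ K) := by rw [two_mul, pow_add]; ring
        _ ≤ B * (n * r) := Nat.mul_le_mul hK (hK.trans hlo)
        _ = _ := by ring
    obtain ⟨ns, r', B', hl, hpos, hr', hrB', hB', he, hend⟩ := ih r1 (B * n) (2 * K)
      (Nat.mul_pos hB (by omega)) hr1B (Nat.mul_le_mul hT.le (hnB.trans hT.le)) hK'
    refine ⟨n :: ns, r', B', by simp; omega, ?_, hr'.trans hr1.le, hrB', hB', ?_, ?_⟩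
    · intro a ha
      rcases List.mem_cons.1 ha with rfl | ha
      · omega
      · exact hpos a ha
    · rw [heq, he, recip, recip, List.map_cons, List.sum_cons]; ring
    · rcases hend with h | h | h
      · exact Or.inl h
      · exact Or.inr (Or.inl h)
      · exact Or.inr (Or.inr (by rwa [show 2 ^ (i + 1) * K = 2 ^ i * (2 * K) by ring]))

/-- Reduction of `a / b` to a fraction with denominator in `[T, T²]`. -/
lemma greedy {a b T0 i : ℕ} (ha : 0 < a) (hab : a < b) (hbT : b ≤ 2 ^ T0) (hi : T0 ≤ 2 ^ i) :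
    ∃ (ns : List ℕ) (r B : ℕ), ns.length ≤ i + 1 ∧ (∀ n ∈ ns, 0 < n) ∧ r < b ∧ r < B ∧
      B ≤ 2 ^ T0 * 2 ^ T0 ∧ (a : ℚ) / b = recip ns + (r : ℚ) / B ∧ (r = 0 ∨ 2 ^ T0 ≤ B) := by
  obtain ⟨n, r1, hn2, hnB, hlo, hr1, hr1B, hhalf, heq⟩ := greedy_step ha hab
  obtain ⟨ns, r, B, hl, hpos, hr, hrB, hB, he, hend⟩ := greedy_iter (2 ^ T0) i r1 (b * n) 1
    (Nat.mul_pos (by omega) (by omega)) hr1B (Nat.mul_le_mul hbT (hnB.trans hbT)) (by simpa using hhalf)
  refine ⟨n :: ns, r, B, by simp; omega, ?_, by omega, hrB, hB, ?_, ?_⟩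
  · intro a ha
    rcases List.mem_cons.1 ha with rfl | ha
    · omega
    · exact hpos a ha
  · rw [heq, he, recip, recip, List.map_cons, List.sum_cons]; ring
  · rcases hend with h | h | h
    · exact Or.inl h
    · exact Or.inr h
    · rcases Nat.eq_zero_or_pos r with h0 | h0
      · exact Or.inl h0
      · refine Or.inr (le_trans ?_ h)
        exact le_trans (Nat.pow_le_pow_right two_pos (by omega)) (Nat.le_mul_of_pos_left _ h0)

lemma recip_map_div {M : ℕ} (hM : 0 < M) (c : ℕ) : ∀ F : List ℕ, (∀ d ∈ F, d ∣ M) →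
    recip (F.map (fun d => c * (M / d))) = (F.sum : ℚ) / ((c : ℚ) * M)
  | [], _ => by simp [recip]
  | d :: F, h => by
    have ih := recip_map_div hM c F fun e he => h e (List.mem_cons_of_mem _ he)
    have hd := h d List.mem_cons_self
    have hd0 : (d : ℚ) ≠ 0 := by exact_mod_cast (Nat.pos_of_dvd_of_pos hd hM).ne'
    rw [recip] at ih ⊢
    rw [List.map_cons, List.map_cons, List.sum_cons, ih, List.sum_cons, Nat.cast_mul, Nat.cast_div hd hd0]
    push_cast
    rw [add_div, mul_div_assoc' (c : ℚ), one_div_div]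

lemma convert_rep {M' k r B x h : ℕ} (hM : 0 < M') (hB : 0 < B) (hl : Rep M' k x) (hh : Rep M' k h)
    (heq : r * M' = B * h + x) :
    ∃ ms : List ℕ, ms.length ≤ k + k ∧ (∀ n ∈ ms, 0 < n) ∧ (r : ℚ) / B = recip ms := by
  obtain ⟨F, hF, hFd, hFs⟩ := hh
  obtain ⟨G, hG, hGd, hGs⟩ := hl
  refine ⟨F.map (fun d => 1 * (M' / d)) ++ G.map (fun d => B * (M' / d)), by simp; omega, ?_, ?_⟩
  · intro n hn
    have key : ∀ d, d ∣ M' → 0 < M' / d := fun d hd =>
      Nat.div_pos (Nat.le_of_dvd hM hd) (Nat.pos_of_dvd_of_pos hd hM)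
    rcases List.mem_append.1 hn with h1 | h1
    · obtain ⟨d, hd, rfl⟩ := List.mem_map.1 h1
      simpa using key d (hFd d hd)
    · obtain ⟨d, hd, rfl⟩ := List.mem_map.1 h1
      exact Nat.mul_pos hB (key d (hGd d hd))
  · have h1 := recip_map_div hM 1 F hFd
    have h2 := recip_map_div hM B G hGd
    rw [recip] at h1 h2 ⊢
    rw [List.map_append, List.sum_append, h1, h2, hFs, hGs]
    have hM' : (M' : ℚ) ≠ 0 := by exact_mod_cast hM.ne'
    have hB' : (B : ℚ) ≠ 0 := by exact_mod_cast hB.ne'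
    have heq' : (r : ℚ) * M' = B * h + x := by exact_mod_cast heq
    field_simp
    push_cast
    linarith

/-- A covering modulus gives short expansions of all fractions with small denominator. -/
theorem short_list {M V k s J S T0 i a b : ℕ} (hc : Cover M V k) (hM : 0 < M) (hs : 2 * 2 ^ s ≤ V)
    (hV : V ≤ 2 ^ S) (hbM : b * M ≤ 2 ^ T0) (hi : T0 ≤ 2 ^ i) (hJ : 2 * T0 + 3 + S ≤ s * (J + 1))
    (hJ' : 2 * T0 + 1 ≤ s * J) (ha : 0 < a) (hab : a < b) :
    ∃ l : List ℕ, l.length ≤ i + 1 + ((J + 2) * k + (J + 2) * k) ∧ (∀ n ∈ l, 0 < n) ∧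
      recip l = (a : ℚ) / b := by
  obtain ⟨ns, r, B, hl, hpos, hr, hrB, hB, he, hend⟩ :=
    greedy ha hab ((Nat.le_mul_of_pos_right b hM).trans hbM) hi
  rcases Nat.eq_zero_or_pos r with h0 | h0
  · exact ⟨ns, by omega, hpos, by rw [he, h0]; simp⟩
  have hTB : 2 ^ T0 ≤ B := hend.resolve_left (by omega)
  have hB0 : 0 < B := by omega
  have hV0 : 0 < V := by have := Nat.two_pow_pos s; omega
  obtain ⟨M', hM'⟩ : ∃ M', M' = 2 ^ (s * (J + 1)) * M := ⟨_, rfl⟩
  have hM'0 : 0 < M' := hM' ▸ Nat.mul_pos (Nat.two_pow_pos _) hM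
  obtain ⟨X, hX⟩ : ∃ X, X = r * M' := ⟨_, rfl⟩
  -- `x` is large enough
  have hBV : B * V + V + B ≤ X := by
    have h1 : B * V + V + B ≤ 2 ^ (2 * T0 + 3 + S) := by
      have e1 : B * V ≤ 2 ^ (2 * T0 + S) := by
        rw [pow_add, two_mul, pow_add]; exact Nat.mul_le_mul hB hV
      have e2 : V ≤ B * V := Nat.le_mul_of_pos_left _ hB0
      have e3 : B ≤ B * V := Nat.le_mul_of_pos_right _ hV0
      have e4 : 2 ^ (2 * T0 + 3 + S) = 8 * 2 ^ (2 * T0 + S) := by
        rw [show 2 * T0 + 3 + S = 3 + (2 * T0 + S) by ring, pow_add]; norm_num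
      omega
    rw [hX, hM']
    refine h1.trans ((Nat.pow_le_pow_right two_pos hJ).trans ?_)
    exact le_trans (Nat.le_mul_of_pos_right _ hM) (Nat.le_mul_of_pos_left _ h0)
  have hXhi : X < B * (2 ^ (s * J) * (4 * V)) := by
    have h1 : r * M * (2 * 2 ^ s) < B * (8 * V) := by
      calc r * M * (2 * 2 ^ s) ≤ B * V :=
            Nat.mul_le_mul (((Nat.mul_le_mul_right M hr.le).trans hbM).trans hTB) hs
        _ < _ := Nat.mul_lt_mul_of_pos_left (by omega) hB0
    have h2 : X = 2 ^ (s * J) * (r * M * 2 ^ s) := by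
      rw [hX, hM', mul_add, mul_one, pow_add]; ring
    rw [h2, mul_left_comm B]
    refine Nat.mul_lt_mul_of_pos_left ?_ (Nat.two_pow_pos _)
    have h3 : B * (8 * V) = 2 * (B * (4 * V)) := by ring
    have h4 : r * M * (2 * 2 ^ s) = 2 * (r * M * 2 ^ s) := by ring
    omega
  obtain ⟨l, hlx⟩ : ∃ l, l = V + (X - V) % B := ⟨_, rfl⟩
  obtain ⟨h, hh⟩ : ∃ h, h = (X - V) / B := ⟨_, rfl⟩
  have hdm : B * h + l = X := by
    have := Nat.div_add_mod (X - V) B
    rw [← hh] at this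
    omega
  have hlhi : l < 2 ^ (s * J) * (4 * V) := by
    have e1 := Nat.mod_lt (X - V) hB0
    have e2 : B ≤ 2 ^ (s * J) := hB.trans (by rw [← pow_add]; exact Nat.pow_le_pow_right two_pos (by omega))
    have e3 : 2 ^ (s * J) * 1 ≤ 2 ^ (s * J) * V := Nat.mul_le_mul_left _ hV0
    have e4 : 1 * V ≤ 2 ^ (s * J) * V := Nat.mul_le_mul_right _ (Nat.two_pow_pos _)
    have e5 : 2 ^ (s * J) * (4 * V) = 4 * (2 ^ (s * J) * V) := by ring
    omega
  have hhlo : V ≤ h := by
    rw [hh, Nat.le_div_iff_mul_le hB0, mul_comm]; omega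
  have hhhi : h < 2 ^ (s * J) * (4 * V) :=
    Nat.lt_of_mul_lt_mul_left (a := B) (by omega)
  obtain ⟨ms, hms, hmspos, hmseq⟩ := convert_rep hM'0 hB0
    (hM' ▸ rep_range hc hs J l (by omega) hlhi) (hM' ▸ rep_range hc hs J h hhlo hhhi)
    (by omega : r * M' = B * h + l)
  refine ⟨ns ++ ms, by simp; omega, fun n hn => ?_, ?_⟩
  · rcases List.mem_append.1 hn with h1 | h1
    · exact hpos n h1
    · exact hmspos n h1
  · rw [he, hmseq]; simp [recip]

end Vale.Agent.P012.Full
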