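import Vale.Agent.P012.Full.Core
import Vale.Agent.P012.PrimeLB
import Mathlib.NumberTheory.Bertrand
import Mathlib.Combinatorics.Pigeonhole

namespace Vale.Agent.P012.Full

open Finset

lemma sq_le_two_pow {m : ℕ} (hm : 4 ≤ m) : m * m ≤ 2 ^ m := by
  induction m, hm using Nat.le_induction with
  | base => norm_num
  | succ m hm ih => rw [pow_succ]; nlinarith

lemma succ_pow_le {j : ℕ} : ∀ k, 2 * k ≤ j → (j + 1) ^ k * j ≤ j ^ k * (j + 2 * k)
  | 0, _ => by simp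
  | k + 1, h => by
    have ih := succ_pow_le k (by omega : 2 * k ≤ j)
    calc (j + 1) ^ (k + 1) * j = (j + 1) ^ k * j * (j + 1) := by ring
      _ ≤ j ^ k * (j + 2 * k) * (j + 1) := Nat.mul_le_mul_right _ ih
      _ = j ^ k * ((j + 2 * k) * (j + 1)) := by ring
      _ ≤ j ^ k * (j * (j + 2 * (k + 1))) := Nat.mul_le_mul_left _ (by nlinarith)
      _ = _ := by ring

lemma valid_mem {U : Finset ℕ} : ∀ {l : List (ℕ × ℕ)}, Valid U l → ∀ x ∈ l, x.1 ∈ U ∧ x.2 ∈ U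
  | [], _, x, hx => absurd hx List.not_mem_nil
  | y :: l, h, x, hx => by
    rcases List.mem_cons.1 hx with rfl | hx
    · exact ⟨h.1, h.2.1⟩
    · exact valid_mem h.2.2.2.2.2 x hx

lemma slots_prod_le {B : ℕ} : ∀ (l : List (ℕ × ℕ)), (∀ x ∈ l, x.1 ≤ B ∧ x.2 ≤ B) →
    (l.map (fun x => x.1 * x.2)).prod ≤ (B * B) ^ l.length
  | [], _ => by simp
  | x :: l, h => by
    rw [List.map_cons, List.prod_cons, List.length_cons, pow_succ']
    exact Nat.mul_le_mul (Nat.mul_le_mul (h x List.mem_cons_self).1 (h x List.mem_cons_self).2)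
      (slots_prod_le l fun y hy => h y (List.mem_cons_of_mem _ hy))

lemma slots_prod_pos : ∀ (l : List (ℕ × ℕ)), (∀ x ∈ l, 0 < x.1 ∧ 0 < x.2) →
    0 < (l.map (fun x => x.1 * x.2)).prod
  | [], _ => by simp
  | x :: l, h => by
    rw [List.map_cons, List.prod_cons]
    exact Nat.mul_pos (Nat.mul_pos (h x List.mem_cons_self).1 (h x List.mem_cons_self).2)
      (slots_prod_pos l fun y hy => h y (List.mem_cons_of_mem _ hy))

/-- A short window inside `[1, 2^(24m)]` with many primes. -/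
lemma exists_window {m : ℕ} (hm : 40 ≤ m) :
    ∃ (j : ℕ) (U : Finset ℕ), (∀ p ∈ U, p.Prime ∧ j * 2 ^ (20 * m) ≤ p ∧
      p ≤ (j + 1) * 2 ^ (20 * m) ∧ p ≤ 2 ^ (24 * m)) ∧
      2 * 2 ^ m ≤ j ∧ 2 ^ (18 * m) ≤ U.card := by
  classical
  set w := 2 ^ (20 * m) with hw
  have hwpos : 0 < w := by rw [hw]; exact Nat.two_pow_pos _
  set P := Nat.primesLE (2 ^ (24 * m)) with hP
  set S := P.filter (fun p => ¬ p < 2 * 2 ^ m * w) with hS
  have hsplit : P.card ≤ S.card + 2 * 2 ^ m * w := by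
    have h1 := Finset.card_filter_add_card_filter_not (s := P) (fun p => p < 2 * 2 ^ m * w)
    have h2 : (P.filter (fun p => p < 2 * 2 ^ m * w)).card ≤ (Finset.range (2 * 2 ^ m * w)).card :=
      Finset.card_le_card fun p hp => Finset.mem_range.2 (Finset.mem_filter.1 hp).2
    rw [Finset.card_range] at h2
    rw [hS]; omega
  have hcard : (2 ^ (4 * m) + 1) * 2 ^ (18 * m) < S.card := by
    by_contra hc
    push Not at hc
    have hpr := Vale.Agent.P012.primes_two_pow (24 * m) (by omega)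
    rw [← hP] at hpr
    have e1 : 2 ^ (18 * m) ≤ 2 ^ (22 * m) := Nat.pow_le_pow_right two_pos (by omega)
    have e2 : 2 ^ m * w ≤ 2 ^ (22 * m) := by
      rw [hw, ← pow_add]; exact Nat.pow_le_pow_right two_pos (by omega)
    have e3 : (2 ^ (4 * m) + 1) * 2 ^ (18 * m) = 2 ^ (22 * m) + 2 ^ (18 * m) := by
      rw [show 22 * m = 4 * m + 18 * m by ring, pow_add]; ring
    have e4 : P.card * (24 * m) ≤ 4 * 2 ^ (22 * m) * (24 * m) :=
      Nat.mul_le_mul_right _ (by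
        have : 2 * 2 ^ m * w = 2 * (2 ^ m * w) := by ring
        omega)
    have e5 : 1 ≤ 2 ^ (22 * m) := Nat.one_le_two_pow
    have e6 : 121 * m < 2 ^ (2 * m) := by
      have h1 := sq_le_two_pow (show 4 ≤ m by omega)
      have h2 : 2 ^ (2 * m) = 2 ^ m * 2 ^ m := by rw [← pow_add]; ring_nf
      have h3 : 121 < m * m := by nlinarith
      calc 121 * m < m * m * m := Nat.mul_lt_mul_of_pos_right h3 (by omega)
        _ ≤ m * m * (m * m) := Nat.mul_le_mul_left _ (Nat.le_mul_self m)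
        _ ≤ _ := h2 ▸ Nat.mul_le_mul h1 h1
    have e7 : 2 ^ (24 * m) = 2 ^ (2 * m) * 2 ^ (22 * m) := by rw [← pow_add]; ring_nf
    nlinarith
  obtain ⟨j, hj, hjc⟩ := Finset.exists_lt_card_fiber_of_mul_lt_card_of_maps_to
    (s := S) (f := fun p => p / w) (t := Finset.range (2 ^ (4 * m) + 1)) (n := 2 ^ (18 * m))
    (fun p hp => by
      rw [Finset.mem_range, Nat.lt_succ_iff]
      refine Nat.div_le_of_le_mul ?_
      rw [hw, ← pow_add, show 20 * m + 4 * m = 24 * m by ring]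
      rw [hS, Finset.mem_filter] at hp
      exact (Nat.mem_primesLE.1 hp.1).1)
    (by rwa [Finset.card_range])
  refine ⟨j, S.filter (fun p => p / w = j), ?_, ?_, hjc.le⟩
  · intro p hp
    obtain ⟨hpS, hpj⟩ := Finset.mem_filter.1 hp
    rw [hS, Finset.mem_filter] at hpS
    obtain ⟨hle, hpp⟩ := Nat.mem_primesLE.1 hpS.1
    refine ⟨hpp, ?_, ?_, hle⟩
    · rw [← hpj]; exact Nat.div_mul_le_self _ _
    · rw [← hpj, mul_comm]; exact (Nat.lt_mul_div_succ _ hwpos).le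
  · obtain ⟨p, hp⟩ := Finset.card_pos.1 (lt_of_le_of_lt (Nat.zero_le _) hjc)
    obtain ⟨hpS, hpj⟩ := Finset.mem_filter.1 hp
    rw [← hpj, Nat.le_div_iff_mul_le hwpos]
    rw [hS, Finset.mem_filter] at hpS
    exact not_lt.1 hpS.2

lemma gb_le {m : ℕ} (hm : 40 ≤ m) : 20000 * m ≤ 2 ^ m := by
  obtain ⟨d, rfl⟩ : ∃ d, m = d + 20 := ⟨m - 20, by omega⟩
  have h1 := sq_le_two_pow (show 4 ≤ d by omega)
  have h2 : 20000 * (d + 20) ≤ d * d * 2 ^ 20 := by
    have : d * 20 ≤ d * d := Nat.mul_le_mul_left _ (by omega)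
    omega
  rw [pow_add]
  exact h2.trans (Nat.mul_le_mul_right _ h1)

lemma gbig_le {m L : ℕ} (hm : 40 ≤ m) (hL : L ≤ m) (hr : 2 ^ L ≤ 2 * m) :
    32 * (24 * m) * (14 * L + 2) + 100000 * 2 ^ L + 100000 ≤ 400000 * (m * m) := by
  have h1 : 32 * (24 * m) * (14 * L + 2) ≤ 32 * (24 * m) * (16 * m) := Nat.mul_le_mul_left _ (by omega)
  have h2 : 32 * (24 * m) * (16 * m) = 12288 * (m * m) := by ring
  have h3 : m ≤ m * m := Nat.le_mul_self m
  omega

lemma exists_N {Y0 gb : ℕ} (h : 2 ^ gb ≤ Y0 ^ 3) :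
    ∃ N : ℕ, N.Prime ∧ Y0 ^ 3 ≤ N * 2 ^ gb ∧ N * 2 ^ gb ≤ 2 * Y0 ^ 3 := by
  obtain ⟨Nl, hNl⟩ : ∃ Nl, Nl = Y0 ^ 3 / 2 ^ gb := ⟨_, rfl⟩
  have hNl0 : 1 ≤ Nl := by rw [hNl, Nat.one_le_div_iff (Nat.two_pow_pos _)]; exact h
  obtain ⟨N, hN, hNlo, hNhi⟩ := Nat.exists_prime_lt_and_le_two_mul Nl (by omega)
  refine ⟨N, hN, ?_, ?_⟩
  · refine (Nat.lt_mul_div_succ (Y0 ^ 3) (Nat.two_pow_pos gb)).le.trans ?_
    rw [← hNl, mul_comm (2 ^ gb)]
    exact Nat.mul_le_mul_right _ (by omega)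
  · refine (Nat.mul_le_mul_right _ hNhi).trans ?_
    rw [mul_assoc, hNl]
    exact Nat.mul_le_mul_left _ (Nat.div_mul_le_self _ _)

/-- The multiplier set: a modulus `M` of size `2^(O(m 2^m))` whose divisors give `O(m)`-term
representations of every integer in `[V, 4V)`. -/
theorem exists_cover {m : ℕ} (hm : 40 ≤ m) :
    ∃ M V : ℕ, 0 < M ∧ M ≤ 2 ^ (20000000 * m * 2 ^ m) ∧ 2 ^ (21 * m * 2 ^ m) ≤ V ∧
      Cover M V (1000000 * m) := by
  classical
  obtain ⟨j, U, hU, hj, hUc⟩ := exists_window hm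
  obtain ⟨L, hL⟩ : ∃ L, L = Nat.log 2 m + 1 := ⟨_, rfl⟩
  obtain ⟨n, hn⟩ : ∃ n, n = 2 ^ m := ⟨_, rfl⟩
  obtain ⟨gb, hgb⟩ : ∃ gb, gb = 400000 * (m * m) := ⟨_, rfl⟩
  obtain ⟨D, hD⟩ : ∃ D, D = 400000 * m + 10 := ⟨_, rfl⟩
  obtain ⟨R, hR⟩ : ∃ R, R = 144000 := ⟨_, rfl⟩
  rw [← hn] at hj
  have hm2n : m * m ≤ n := hn ▸ sq_le_two_pow (by omega)
  have hrlo : m < 2 ^ L := hL ▸ Nat.lt_pow_succ_log_self one_lt_two m
  have hrhi : 2 ^ L ≤ 2 * m := by
    rw [hL, pow_succ, mul_comm]; exact Nat.mul_le_mul_left _ (Nat.pow_log_le_self 2 (by omega))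
  have hLm : L ≤ m := by
    have : Nat.log 2 m < m := Nat.log_lt_self 2 (by omega)
    omega
  have hL4 : 4 ≤ L := by
    have : 3 ≤ Nat.log 2 m := Nat.le_log_of_pow_le one_lt_two (by omega)
    omega
  -- the pool
  have hcap : 2 * n + 2 + 4 * 2 ^ 2 ^ L * (L * (L + 24 * m * n + 1)) ≤ U.card := by
    refine le_trans ?_ hUc
    have h1 : 2 ^ 2 ^ L ≤ n * n := by
      rw [hn, ← pow_add]; exact Nat.pow_le_pow_right two_pos (by omega)
    have h2 : L * (L + 24 * m * n + 1) ≤ m * (26 * (m * n)) := by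
      refine Nat.mul_le_mul hLm ?_
      have h3 : m ≤ m * n := Nat.le_mul_of_pos_right _ (hn ▸ Nat.two_pow_pos m)
      have : 24 * m * n = 24 * (m * n) := by ring
      omega
    have h3 : 2 ^ (18 * m) = n ^ 18 := by rw [hn, ← pow_mul]; ring_nf
    have hn1 : 1600 ≤ n := le_trans (by nlinarith) hm2n
    rw [h3]
    calc 2 * n + 2 + 4 * 2 ^ 2 ^ L * (L * (L + 24 * m * n + 1))
        ≤ 2 * n + 2 + 4 * (n * n) * (m * (26 * (m * n))) := by gcongr
      _ = 2 * n + 2 + 104 * (m * m) * n ^ 3 := by ring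
      _ ≤ 2 * n + 2 + 104 * n * n ^ 3 := by gcongr
      _ ≤ n ^ 5 := by
          have h4 : n ≤ n ^ 4 := Nat.le_self_pow (by omega) n
          have h5 : 1 ≤ n ^ 4 := Nat.one_le_pow _ _ (by omega)
          have h6 : 108 * n ^ 4 ≤ n ^ 5 := by
            rw [pow_succ' n 4]; exact Nat.mul_le_mul_right _ (by omega)
          have h7 : 104 * n * n ^ 3 = 104 * n ^ 4 := by ring
          omega
      _ ≤ n ^ 18 := Nat.pow_le_pow_right (by omega) (by omega)
  obtain ⟨l, hlen, hvalid, hcoll⟩ := exists_pool U (fun p hp => (hU p hp).1) (e := 24 * m) (L := L) (n := n)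
    (fun p hp => (hU p hp).2.2.2) (by omega) (by omega)
  obtain ⟨w, hw⟩ : ∃ w, w = 2 ^ (20 * m) := ⟨_, rfl⟩
  rw [← hw] at hU
  obtain ⟨Y0, hY0⟩ : ∃ Y0, Y0 = (j * w) ^ n := ⟨_, rfl⟩
  have hjw : 2 ^ (21 * m) ≤ j * w := by
    rw [show 21 * m = m + 20 * m by ring, pow_add, ← hn, ← hw]
    exact Nat.mul_le_mul_right _ (by omega)
  have hjwe : j * w ≤ 2 ^ (24 * m) := by
    obtain ⟨p, hp⟩ := Finset.card_pos.1 (lt_of_lt_of_le (Nat.two_pow_pos _) hUc)
    exact (hU p hp).2.1.trans (hU p hp).2.2.2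
  have hYlo : 2 ^ (21 * m * n) ≤ Y0 := by rw [hY0, pow_mul]; exact Nat.pow_le_pow_left hjw n
  have hYhi : Y0 ≤ 2 ^ (24 * m * n) := by rw [hY0, pow_mul]; exact Nat.pow_le_pow_left hjwe n
  have hj0 : 0 < j := by have : 0 < n := hn ▸ Nat.two_pow_pos m; omega
  have hp : GoodPool U (24 * m) (21 * m) L n Y0 l := by
    refine ⟨fun p hp => (hU p hp).1, fun p hp => ⟨hjw.trans (hU p hp).2.1, (hU p hp).2.2.2⟩,
      by omega, by omega, hvalid, hlen, fun y hy => ?_, fun s hs => hcoll s hs L le_rfl⟩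
    obtain ⟨h1, h2⟩ := prods_bounds (lo := j * w) (hi := (j + 1) * w)
      (fun p hp => ⟨(hU p hp).2.1, (hU p hp).2.2.1⟩) hvalid y hy
    rw [hlen] at h1 h2
    refine ⟨hY0 ▸ h1, h2.trans ?_⟩
    rw [hY0, mul_pow, mul_pow, ← mul_assoc]
    refine Nat.mul_le_mul_right _ (Nat.le_of_mul_le_mul_right ?_ hj0)
    calc (j + 1) ^ n * j ≤ j ^ n * (j + 2 * n) := succ_pow_le n (by omega)
      _ ≤ j ^ n * (2 * j) := Nat.mul_le_mul_left _ (by omega)
      _ = _ := by ring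
  -- the modulus
  have hgbm : gb + 4 + 2 * L ≤ 21 * m * n := by
    have h1 : gb ≤ 20 * m * n := by
      rw [hgb]
      have h3 := Nat.mul_le_mul_left m (hn ▸ gb_le hm : 20000 * m ≤ n)
      have : m * (20000 * m) = 20000 * (m * m) := by ring
      have : 20 * m * n = 20 * (m * n) := by ring
      omega
    have h2 : 3 * m ≤ m * n := by nlinarith
    have : 21 * m * n = 20 * m * n + m * n := by ring
    omega
  have hY0pos : 0 < Y0 := lt_of_lt_of_le (Nat.two_pow_pos _) hYlo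
  have hYbig : 16 * 2 ^ (2 * L) * 2 ^ gb ≤ Y0 := by
    refine le_trans ?_ hYlo
    rw [show (16 : ℕ) = 2 ^ 4 by norm_num, ← pow_add, ← pow_add]
    exact Nat.pow_le_pow_right two_pos (by omega)
  have hGY : 2 ^ gb ≤ Y0 ^ 3 := by
    refine le_trans ?_ (Nat.le_self_pow (by omega) Y0)
    exact le_trans (Nat.le_mul_of_pos_left _ (by positivity)) hYbig
  obtain ⟨N, hN, hNlow, hNhigh⟩ := exists_N hGY
  have hpar : Params (24 * m) L n Y0 gb N := by
    refine ⟨?_, by omega, ?_, hYbig, hYhi, hNlow, hNhigh, hN.pos⟩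
    · rw [show (16 : ℕ) = 2 ^ 4 by norm_num]; exact pow_dvd_pow _ hL4
    · rw [hgb]; exact gbig_le hm hLm hrhi
  have h10 : 32 * (2 * 2 ^ L * R) ≤ 2 ^ (10 * m) := by
    have h1 : 32 * (2 * 2 ^ L * R) ≤ 2 ^ 25 * m := by rw [hR]; norm_num; omega
    refine h1.trans ?_
    have h2 : m ≤ 2 ^ m := Nat.lt_two_pow_self.le
    calc 2 ^ 25 * m ≤ 2 ^ 25 * 2 ^ m := Nat.mul_le_mul_left _ h2
      _ = 2 ^ (25 + m) := (pow_add _ _ _).symm
      _ ≤ _ := Nat.pow_le_pow_right two_pos (by omega)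
  have hmD : (2 ^ m) ^ D = 2 ^ (10 * m) * 2 ^ gb := by
    rw [← pow_mul, ← pow_add, hD, hgb]; congr 1; ring
  obtain ⟨z, hz, hcov⟩ := core_cover (b := m) (D := D) hp hpar hR hN (by
    rw [hmD]; exact Nat.mul_le_mul_right _ h10)
  have hlpos : 0 < (l.map (fun x => x.1 * x.2)).prod :=
    slots_prod_pos l fun x hx => ⟨(hU _ (valid_mem hvalid x hx).1).1.pos, (hU _ (valid_mem hvalid x hx).2).1.pos⟩
  refine ⟨(∏ c, z c) * (l.map (fun x => x.1 * x.2)).prod * (N * ((2 ^ m) ^ D * (2 ^ m).factorial)),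
    4 * (2 * 2 ^ L * R) * Y0 ^ 3, ?_, ?_, ?_, ?_⟩
  · have : 0 < ∏ c, z c := Finset.prod_pos fun c _ => (hz c).1
    have := hN.pos
    have := Nat.factorial_pos (2 ^ m)
    positivity
  · rw [show 20000000 * m * 2 ^ m = 20000000 * (m * n) by rw [hn]; ring]
    have hz' : ∏ c, z c ≤ 2 ^ ((1 + 48 * (m * n)) * R) := by
      rw [pow_mul]
      refine (Finset.prod_le_prod' (g := fun _ => 2 ^ (1 + 48 * (m * n))) fun c _ => ?_).trans_eq (by simp)
      refine (hz c).2.le.trans ?_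
      rw [pow_add, pow_one, show 48 * (m * n) = 24 * m * n * 2 by ring, pow_mul]
      gcongr
    have hl' : (l.map (fun x => x.1 * x.2)).prod ≤ 2 ^ (48 * (m * n)) := by
      refine (slots_prod_le (B := 2 ^ (24 * m)) l fun x hx =>
        ⟨(hU _ (valid_mem hvalid x hx).1).2.2.2, (hU _ (valid_mem hvalid x hx).2).2.2.2⟩).trans ?_
      rw [hlen, ← pow_add, ← pow_mul]
      exact Nat.pow_le_pow_right two_pos (by nlinarith)
    have hN' : N ≤ 2 ^ (1 + 72 * (m * n)) := by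
      refine (Nat.le_mul_of_pos_right N (Nat.two_pow_pos gb)).trans (hNhigh.trans ?_)
      rw [pow_add, pow_one, show 72 * (m * n) = 24 * m * n * 3 by ring, pow_mul]
      gcongr
    have hf' : (2 ^ m).factorial ≤ 2 ^ (m * n) := by
      refine (Nat.factorial_le_pow _).trans ?_
      rw [← pow_mul, hn]
    have hDe : (2 ^ m) ^ D ≤ 2 ^ (10 * m + gb) := by rw [hmD, pow_add]
    refine (Nat.mul_le_mul (Nat.mul_le_mul hz' hl') (Nat.mul_le_mul hN' (Nat.mul_le_mul hDe hf'))).trans ?_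
    rw [← pow_add, ← pow_add, ← pow_add, ← pow_add]
    refine Nat.pow_le_pow_right two_pos ?_
    rw [hR, hgb]
    have : m * m ≤ m * n := Nat.mul_le_mul_left _ (le_trans (Nat.le_mul_self m) hm2n)
    have : m ≤ m * n := Nat.le_mul_of_pos_right _ (hn ▸ Nat.two_pow_pos m)
    omega
  · rw [show 21 * m * 2 ^ m = 21 * m * n by rw [hn]]
    refine hYlo.trans ((Nat.le_self_pow (by omega) Y0).trans (Nat.le_mul_of_pos_left _ ?_))
    rw [hR]; positivity
  · intro x hx1 hx2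
    obtain ⟨F, hF, hFd, hFs⟩ := hcov x hx1 hx2
    refine ⟨F, hF.trans ?_, hFd, hFs⟩
    rw [hR, hD]; omega

end Vale.Agent.P012.Full
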