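import Vale.Agent.P012.Full.Expo
import Mathlib.Data.Nat.Prime.Infinite
import Mathlib.Algebra.BigOperators.Associated
import Mathlib.Algebra.BigOperators.Field
import Mathlib.Data.List.Infix

namespace Vale.Agent.P012.Full

open Finset

/-- All products choosing one entry from each slot. -/
def prods : List (ℕ × ℕ) → Finset ℕ
  | [] => {1}
  | x :: l => (prods l).image (fun y => x.1 * y) ∪ (prods l).image (fun y => x.2 * y)

/-- The primes occurring in a slot list. -/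
def slotPrimes : List (ℕ × ℕ) → Finset ℕ
  | [] => ∅
  | x :: l => insert x.1 (insert x.2 (slotPrimes l))

/-- Slots with distinct primes from `U`. -/
def Valid (U : Finset ℕ) : List (ℕ × ℕ) → Prop
  | [] => True
  | x :: l => x.1 ∈ U ∧ x.2 ∈ U ∧ x.1 ≠ x.2 ∧ x.1 ∉ slotPrimes l ∧ x.2 ∉ slotPrimes l ∧ Valid U l

lemma slotPrimes_subset {U : Finset ℕ} : ∀ {l : List (ℕ × ℕ)}, Valid U l → slotPrimes l ⊆ U
  | [], _ => Finset.empty_subset _
  | _ :: _, h => Finset.insert_subset h.1 (Finset.insert_subset h.2.1 (slotPrimes_subset h.2.2.2.2.2))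

lemma card_slotPrimes {U : Finset ℕ} : ∀ {l : List (ℕ × ℕ)}, Valid U l → (slotPrimes l).card = 2 * l.length
  | [], _ => rfl
  | x :: l, h => by
    rw [slotPrimes, Finset.card_insert_of_notMem, Finset.card_insert_of_notMem h.2.2.2.2.1,
      card_slotPrimes h.2.2.2.2.2, List.length_cons]
    · ring
    · rw [Finset.mem_insert, not_or]; exact ⟨h.2.2.1, h.2.2.2.1⟩

lemma prime_dvd_prods {U : Finset ℕ} (hU : ∀ p ∈ U, p.Prime) : ∀ {l : List (ℕ × ℕ)}, Valid U l →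
    ∀ y ∈ prods l, ∀ p : ℕ, p.Prime → p ∣ y → p ∈ slotPrimes l
  | [], _, y, hy, p, hp, hd => by
    simp only [prods, Finset.mem_singleton] at hy; subst hy
    exact absurd (Nat.dvd_one.1 hd) hp.ne_one
  | x :: l, h, y, hy, p, hp, hd => by
    simp only [prods, Finset.mem_union, Finset.mem_image] at hy
    rcases hy with ⟨y', hy', rfl⟩ | ⟨y', hy', rfl⟩ <;> rcases hp.dvd_mul.1 hd with h1 | h1
    · simp [slotPrimes, (Nat.prime_dvd_prime_iff_eq hp (hU _ h.1)).1 h1]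
    · simp [slotPrimes, prime_dvd_prods hU h.2.2.2.2.2 y' hy' p hp h1]
    · simp [slotPrimes, (Nat.prime_dvd_prime_iff_eq hp (hU _ h.2.1)).1 h1]
    · simp [slotPrimes, prime_dvd_prods hU h.2.2.2.2.2 y' hy' p hp h1]

lemma prods_cons_disjoint {U : Finset ℕ} (hU : ∀ p ∈ U, p.Prime) {x : ℕ × ℕ} {l : List (ℕ × ℕ)}
    (h : Valid U (x :: l)) :
    Disjoint ((prods l).image (fun y => x.1 * y)) ((prods l).image (fun y => x.2 * y)) := by
  rw [Finset.disjoint_left]
  intro z hz hz'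
  obtain ⟨a, ha, rfl⟩ := Finset.mem_image.1 hz
  obtain ⟨b, -, hb⟩ := Finset.mem_image.1 hz'
  have h2 := hU _ h.2.1
  rcases h2.dvd_mul.1 (Dvd.intro b hb) with h1 | h1
  · exact h.2.2.1 ((Nat.prime_dvd_prime_iff_eq h2 (hU _ h.1)).1 h1).symm
  · exact h.2.2.2.2.1 (prime_dvd_prods hU h.2.2.2.2.2 a ha _ h2 h1)

lemma card_prods {U : Finset ℕ} (hU : ∀ p ∈ U, p.Prime) : ∀ {l : List (ℕ × ℕ)}, Valid U l →
    (prods l).card = 2 ^ l.length
  | [], _ => rfl
  | x :: l, h => by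
    rw [prods, Finset.card_union_of_disjoint (prods_cons_disjoint hU h),
      Finset.card_image_of_injective _ (fun a b hab => Nat.eq_of_mul_eq_mul_left (hU _ h.1).pos hab),
      Finset.card_image_of_injective _ (fun a b hab => Nat.eq_of_mul_eq_mul_left (hU _ h.2.1).pos hab),
      card_prods hU h.2.2.2.2.2, List.length_cons, pow_succ]
    ring

lemma prods_bounds {U : Finset ℕ} {lo hi : ℕ} (hU : ∀ p ∈ U, lo ≤ p ∧ p ≤ hi) :
    ∀ {l : List (ℕ × ℕ)}, Valid U l → ∀ y ∈ prods l, lo ^ l.length ≤ y ∧ y ≤ hi ^ l.length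
  | [], _, y, hy => by simp [prods] at hy; simp [hy]
  | x :: l, h, y, hy => by
    simp only [prods, Finset.mem_union, Finset.mem_image] at hy
    rw [List.length_cons, pow_succ', pow_succ']
    rcases hy with ⟨y', hy', rfl⟩ | ⟨y', hy', rfl⟩
    · have := prods_bounds hU h.2.2.2.2.2 y' hy'
      exact ⟨Nat.mul_le_mul (hU _ h.1).1 this.1, Nat.mul_le_mul (hU _ h.1).2 this.2⟩
    · have := prods_bounds hU h.2.2.2.2.2 y' hy'
      exact ⟨Nat.mul_le_mul (hU _ h.2.1).1 this.1, Nat.mul_le_mul (hU _ h.2.1).2 this.2⟩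

lemma expS_cons {U : Finset ℕ} (hU : ∀ p ∈ U, p.Prime) {x : ℕ × ℕ} {l : List (ℕ × ℕ)}
    (h : Valid U (x :: l)) (φ : ℝ) :
    expS (prods (x :: l)) φ = expS (prods l) ((x.1 : ℝ) * φ) + expS (prods l) ((x.2 : ℝ) * φ) := by
  rw [expS, prods, Finset.sum_union (prods_cons_disjoint hU h),
    Finset.sum_image (fun a _ b _ hab => Nat.eq_of_mul_eq_mul_left (hU _ h.1).pos hab),
    Finset.sum_image (fun a _ b _ hab => Nat.eq_of_mul_eq_mul_left (hU _ h.2.1).pos hab)]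
  unfold expS
  congr 1 <;> refine Finset.sum_congr rfl fun a _ => ?_ <;> congr 1 <;> push_cast <;> ring

lemma rcoll_pos {A : Finset ℕ} (hA : A.Nonempty) (j : ℕ) : 0 < rcoll A j := by
  obtain ⟨a, ha⟩ := hA
  refine Finset.card_pos.2 ⟨(fun _ => a, fun _ => a), ?_⟩
  rw [Finset.mem_filter, tup, Finset.mem_product, Fintype.mem_piFinset]
  exact ⟨⟨fun _ => ha, fun _ => ha⟩, by simp [tval]⟩

lemma rcoll_one (A : Finset ℕ) : rcoll A 1 = A.card := by
  refine (Finset.card_bij (fun (a : ℕ) _ => ((fun _ : Fin 1 => a), (fun _ : Fin 1 => a))) ?_ ?_ ?_).symm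
  · intro a ha; simp [tup, tval, ha]
  · intro a _ b _ hab
    exact congrFun (congrArg Prod.fst hab) 0
  · rintro ⟨f, g⟩ h
    simp [tup, tval] at h
    refine ⟨f 0, h.1.1, ?_⟩
    have : f 0 = g 0 := by omega
    ext i <;> fin_cases i <;> simp [this]

/-- Normalised collision number. -/
noncomputable def nc (A : Finset ℕ) (j : ℕ) : ℝ := (rcoll A j : ℝ) / (A.card : ℝ) ^ (2 * j)

lemma nc_nonneg (A : Finset ℕ) (j : ℕ) : 0 ≤ nc A j := by unfold nc; positivity

lemma nc_le_one (A : Finset ℕ) (j : ℕ) : nc A j ≤ 1 := by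
  refine div_le_one_of_le₀ ?_ (by positivity)
  exact_mod_cast (Finset.card_filter_le _ _).trans (card_tup A j).le

lemma pointwise (x y : ℝ) (hx : 0 ≤ x) (hy : 0 ≤ y) (j : ℕ) :
    ((x + y) / 2) ^ (2 * j) ≤ (25 / 16 : ℝ) ^ j * (x ^ j * y ^ j)
      + (25 / 64 : ℝ) ^ j * (x ^ (2 * j) + y ^ (2 * j)) := by
  wlog hxy : y ≤ x generalizing x y
  · have := this y x hy hx (le_of_not_ge hxy)
    rw [add_comm x y, mul_comm (x ^ j), add_comm (x ^ (2 * j))]; exact this
  have hB : 0 ≤ (25 / 64 : ℝ) ^ j * (x ^ (2 * j) + y ^ (2 * j)) := by positivity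
  have hA : 0 ≤ (25 / 16 : ℝ) ^ j * (x ^ j * y ^ j) := by positivity
  rcases le_total x (4 * y) with h | h
  · have h1 : ((x + y) / 2) ^ 2 ≤ 25 / 16 * (x * y) := by nlinarith [mul_nonneg (sub_nonneg.2 h) (by linarith : (0:ℝ) ≤ 4 * x - y)]
    have h2 : ((x + y) / 2) ^ (2 * j) ≤ (25 / 16 : ℝ) ^ j * (x ^ j * y ^ j) := by
      rw [pow_mul, ← mul_pow, ← mul_pow]
      exact pow_le_pow_left₀ (by positivity) h1 j
    linarith
  · have h1 : ((x + y) / 2) ^ 2 ≤ 25 / 64 * x ^ 2 := by nlinarith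
    have h2 : ((x + y) / 2) ^ (2 * j) ≤ (25 / 64 : ℝ) ^ j * x ^ (2 * j) := by
      rw [pow_mul, pow_mul, ← mul_pow]
      exact pow_le_pow_left₀ (by positivity) h1 j
    have h3 : 0 ≤ (25 / 64 : ℝ) ^ j * y ^ (2 * j) := by positivity
    nlinarith

lemma prime_divisor_count (U : Finset ℕ) (hU : ∀ p ∈ U, p.Prime) {u : ℤ} {W : ℕ} (hu : u ≠ 0)
    (hW : u.natAbs < 2 ^ W) : (U.filter (fun p : ℕ => (p : ℤ) ∣ u)).card ≤ W := by
  set s := U.filter (fun p : ℕ => (p : ℤ) ∣ u)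
  have hdvd : ∏ p ∈ s, p ∣ u.natAbs :=
    Finset.prod_primes_dvd _ (fun p hp => (hU p (Finset.mem_filter.1 hp).1).prime)
      (fun p hp => Int.natCast_dvd.1 (Finset.mem_filter.1 hp).2)
  have h1 : 2 ^ s.card ≤ ∏ p ∈ s, p :=
    Finset.pow_card_le_prod _ _ _ fun p hp => (hU p (Finset.mem_filter.1 hp).1).two_le
  have h2 := Nat.le_of_dvd (Int.natAbs_pos.2 hu) hdvd
  exact ((Nat.pow_lt_pow_iff_right (by norm_num)).1 (by omega : 2 ^ s.card < 2 ^ W)).le

/-- Non-trivial solutions of `p V + q V' = 0`. -/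
def crossNz (A : Finset ℕ) (i p q : ℕ) : ℕ :=
  ((tup A i ×ˢ tup A i).filter
    (fun z => tval z.1 ≠ 0 ∧ (p : ℤ) * tval z.1 + (q : ℤ) * tval z.2 = 0)).card

lemma cross_le (A : Finset ℕ) (i p q : ℕ) (hq : q ≠ 0) :
    ((tup A i ×ˢ tup A i).filter (fun z => (p : ℤ) * tval z.1 + (q : ℤ) * tval z.2 = 0)).card
      ≤ rcoll A i * rcoll A i + crossNz A i p q := by
  rw [rcoll, ← Finset.card_product, crossNz]
  refine le_trans (Finset.card_le_card ?_) (Finset.card_union_le _ _)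
  intro z hz
  simp only [Finset.mem_filter, Finset.mem_union, Finset.mem_product] at hz ⊢
  by_cases h0 : tval z.1 = 0
  · left
    have : tval z.2 = 0 := by
      have := hz.2; rw [h0] at this; simpa [hq] using this
    tauto
  · right; tauto

/-- Multiplicity of a value of the signed sum. -/
def mult (A : Finset ℕ) (i : ℕ) (u : ℤ) : ℕ := ((tup A i).filter (fun τ => tval τ = u)).card

/-- Non-zero values of the signed sum that are divisible by `p`. -/
def valsDvd (A : Finset ℕ) (i p : ℕ) : Finset ℤ :=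
  ((tup A i).image tval).filter (fun u => u ≠ 0 ∧ (p : ℤ) ∣ u)

lemma crossNz_le (A : Finset ℕ) (i : ℕ) {p q : ℕ} (hp : p.Prime) (hq : q.Prime) (hpq : p ≠ q) :
    2 * crossNz A i p q
      ≤ ∑ u ∈ valsDvd A i q, mult A i u ^ 2 + ∑ u ∈ valsDvd A i p, mult A i u ^ 2 := by
  classical
  set φ : ℤ → ℤ := fun u => -((p : ℤ) * (u / (q : ℤ))) with hφ
  have hqZ : (q : ℤ) ≠ 0 := by exact_mod_cast hq.ne_zero
  have hdiv : ∀ z : ((Fin i → ℕ) × (Fin i → ℕ)) × ((Fin i → ℕ) × (Fin i → ℕ)),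
      (p : ℤ) * tval z.1 + (q : ℤ) * tval z.2 = 0 → (q : ℤ) ∣ tval z.1 ∧ tval z.2 = φ (tval z.1) := by
    intro z hz
    have hd : (q : ℤ) ∣ tval z.1 := by
      have h1 : (q : ℤ) ∣ (p : ℤ) * tval z.1 := ⟨-tval z.2, by linarith⟩
      have hcop : IsCoprime (q : ℤ) (p : ℤ) :=
        Int.isCoprime_iff_gcd_eq_one.2 (by
          rw [Int.gcd_natCast_natCast]; exact (Nat.coprime_primes hq hp).2 (Ne.symm hpq))
      exact hcop.dvd_of_dvd_mul_left h1
    refine ⟨hd, ?_⟩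
    obtain ⟨w, hw⟩ := hd
    have : (q : ℤ) * tval z.2 = (q : ℤ) * (-((p : ℤ) * w)) := by rw [hw] at hz; linarith
    simp only [hφ]
    rw [mul_left_cancel₀ hqZ this, hw, Int.mul_ediv_cancel_left _ hqZ]
  have h1 : crossNz A i p q ≤ ∑ u ∈ valsDvd A i q, mult A i u * mult A i (φ u) := by
    rw [crossNz]
    refine le_trans (Finset.card_le_card (t := (valsDvd A i q).biUnion fun u =>
      (tup A i).filter (fun τ => tval τ = u) ×ˢ (tup A i).filter (fun τ => tval τ = φ u)) ?_)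
      (Finset.card_biUnion_le.trans_eq (Finset.sum_congr rfl fun u _ => Finset.card_product _ _))
    intro z hz
    rw [Finset.mem_filter, Finset.mem_product] at hz
    obtain ⟨hd, hv⟩ := hdiv z hz.2.2
    rw [Finset.mem_biUnion]
    refine ⟨tval z.1, ?_, ?_⟩
    · exact Finset.mem_filter.2 ⟨Finset.mem_image_of_mem _ hz.1.1, hz.2.1, hd⟩
    · rw [Finset.mem_product, Finset.mem_filter, Finset.mem_filter]
      exact ⟨⟨hz.1.1, rfl⟩, hz.1.2, hv⟩
  have h2 : ∑ u ∈ valsDvd A i q, mult A i (φ u) ^ 2 ≤ ∑ u ∈ valsDvd A i p, mult A i u ^ 2 := by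
    have hinj : Set.InjOn φ ↑(valsDvd A i q) := by
      intro a ha b hb hab
      simp only [valsDvd, Finset.coe_filter, Set.mem_ofPred_eq] at ha hb
      have hpz : (p : ℤ) ≠ 0 := by exact_mod_cast hp.ne_zero
      have := mul_left_cancel₀ hpz (neg_injective hab)
      rw [← Int.ediv_mul_cancel ha.2.2, ← Int.ediv_mul_cancel hb.2.2, this]
    rw [← Finset.sum_image (f := fun v => mult A i v ^ 2) hinj]
    refine Finset.sum_le_sum_of_ne_zero fun v hv hne => ?_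
    obtain ⟨u, hu, rfl⟩ := Finset.mem_image.1 hv
    rw [valsDvd, Finset.mem_filter] at hu ⊢
    have hm : mult A i (φ u) ≠ 0 := fun h => hne (by rw [h]; simp)
    obtain ⟨τ, hτ⟩ := Finset.card_ne_zero.1 hm
    rw [Finset.mem_filter] at hτ
    refine ⟨Finset.mem_image.2 ⟨τ, hτ⟩, ?_, ?_⟩
    · rw [hφ]; simp only [neg_ne_zero]
      refine mul_ne_zero (by exact_mod_cast hp.ne_zero) fun h0 => hu.2.1 ?_
      rw [← Int.ediv_mul_cancel hu.2.2, h0, zero_mul]
    · exact (dvd_mul_right _ _).neg_right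
  calc 2 * crossNz A i p q ≤ 2 * ∑ u ∈ valsDvd A i q, mult A i u * mult A i (φ u) :=
        Nat.mul_le_mul_left _ h1
    _ ≤ ∑ u ∈ valsDvd A i q, (mult A i u ^ 2 + mult A i (φ u) ^ 2) := by
        rw [Finset.mul_sum]
        refine Finset.sum_le_sum fun u _ => ?_
        rw [← mul_assoc]
        exact two_mul_le_add_sq _ _
    _ ≤ _ := by rw [Finset.sum_add_distrib]; exact Nat.add_le_add_left h2 _

lemma swap_card (A : Finset ℕ) (i : ℕ) :
    ((tup A i ×ˢ tup A i).filter (fun z => tval z.1 + tval z.2 = 0)).card =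
      ((tup A i ×ˢ tup A i).filter (fun z => tval z.1 = tval z.2)).card := by
  refine Finset.card_bij' (fun z _ => (z.1, z.2.swap)) (fun z _ => (z.1, z.2.swap)) ?_ ?_ ?_ ?_
  · intro z hz
    rw [Finset.mem_filter, Finset.mem_product] at hz ⊢
    simp only [tup, Finset.mem_product, tval, Prod.swap] at hz ⊢
    exact ⟨⟨hz.1.1, hz.1.2.2, hz.1.2.1⟩, by linarith [hz.2]⟩
  · intro z hz
    rw [Finset.mem_filter, Finset.mem_product] at hz ⊢
    simp only [tup, Finset.mem_product, tval, Prod.swap] at hz ⊢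
    exact ⟨⟨hz.1.1, hz.1.2.2, hz.1.2.1⟩, by linarith [hz.2]⟩
  · intro z _; rfl
  · intro z _; rfl

lemma sum_mult_sq (A : Finset ℕ) (i : ℕ) {H : ℕ} (hA : ∀ a ∈ A, a ≤ H) :
    ∑ u ∈ (tup A i).image tval, mult A i u ^ 2 = rcoll A (2 * i) := by
  classical
  have h1 : ((tup A i ×ˢ tup A i).filter (fun z => tval z.1 = tval z.2)).card =
      ∑ u ∈ (tup A i).image tval, mult A i u ^ 2 := by
    rw [Finset.card_eq_sum_card_fiberwise (f := fun z => tval z.1) (t := (tup A i).image tval)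
      (fun z hz => Finset.mem_coe.2 (Finset.mem_image_of_mem _
        (Finset.mem_product.1 (Finset.mem_filter.1 (Finset.mem_coe.1 hz)).1).1))]
    refine Finset.sum_congr rfl fun u _ => ?_
    rw [sq, mult, ← Finset.card_product]
    congr 1
    ext z
    simp only [Finset.mem_filter, Finset.mem_product]
    constructor
    · rintro ⟨⟨⟨h1, h2⟩, h3⟩, h4⟩; exact ⟨⟨h1, h4⟩, h2, h3 ▸ h4⟩
    · rintro ⟨⟨h1, h2⟩, h3, h4⟩; exact ⟨⟨⟨h1, h3⟩, h2.trans h4.symm⟩, h2⟩
  rw [← h1, ← swap_card]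
  set Q := 2 * i * H + 1 with hQ
  have e1 := sum_moment A (2 * i) hA (show 2 * i * H < Q by omega)
  have e2 := sum_cross A i 1 1 hA (show (1 + 1) * (i * H) < Q by rw [hQ, mul_assoc]; omega)
  simp only [Nat.cast_one, one_mul, ← pow_add] at e2
  rw [show 2 * i + 2 * i = 2 * (2 * i) by ring, e1] at e2
  have := mul_left_cancel₀ (show (Q : ℝ) ≠ 0 by positivity) e2
  exact_mod_cast this.symm

lemma sum_crossNz_le (A U : Finset ℕ) (hU : ∀ p ∈ U, p.Prime) (i : ℕ) {H W : ℕ} (hA : ∀ a ∈ A, a ≤ H)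
    (hW : i * H < 2 ^ W) :
    ∑ x ∈ U.offDiag, crossNz A i x.1 x.2 ≤ U.card * (W * rcoll A (2 * i)) := by
  classical
  set G : ℕ → ℕ := fun p => ∑ u ∈ valsDvd A i p, mult A i u ^ 2 with hG
  have hsumG : ∑ p ∈ U, G p ≤ W * rcoll A (2 * i) := by
    rw [← sum_mult_sq A i hA, Finset.mul_sum]
    calc ∑ p ∈ U, G p = ∑ p ∈ U, ∑ u ∈ (tup A i).image tval,
          if u ≠ 0 ∧ (p : ℤ) ∣ u then mult A i u ^ 2 else 0 := by
          refine Finset.sum_congr rfl fun p _ => ?_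
          rw [hG]; simp only [valsDvd, Finset.sum_filter]
      _ = ∑ u ∈ (tup A i).image tval, ∑ p ∈ U,
          if u ≠ 0 ∧ (p : ℤ) ∣ u then mult A i u ^ 2 else 0 := Finset.sum_comm
      _ ≤ _ := by
          refine Finset.sum_le_sum fun u hu => ?_
          by_cases h0 : u = 0
          · simp [h0]
          simp only [ne_eq, h0, not_false_eq_true, true_and]
          rw [← Finset.sum_filter, Finset.sum_const, smul_eq_mul]
          refine Nat.mul_le_mul_right _ (prime_divisor_count U hU h0 ?_)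
          obtain ⟨τ, hτ, rfl⟩ := Finset.mem_image.1 hu
          have := abs_tval_le hA hτ
          rw [Int.abs_eq_natAbs] at this
          omega
  have h2 : 2 * ∑ x ∈ U.offDiag, crossNz A i x.1 x.2 ≤ 2 * (U.card * (W * rcoll A (2 * i))) := by
    calc 2 * ∑ x ∈ U.offDiag, crossNz A i x.1 x.2
        = ∑ x ∈ U.offDiag, 2 * crossNz A i x.1 x.2 := Finset.mul_sum _ _ _
      _ ≤ ∑ x ∈ U.offDiag, (G x.2 + G x.1) := by
          refine Finset.sum_le_sum fun x hx => ?_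
          rw [Finset.mem_offDiag] at hx
          exact crossNz_le A i (hU _ hx.1) (hU _ hx.2.1) hx.2.2
      _ ≤ ∑ x ∈ U ×ˢ U, (G x.2 + G x.1) := by
          refine Finset.sum_le_sum_of_subset fun x hx => ?_
          rw [Finset.mem_offDiag] at hx
          exact Finset.mem_product.2 ⟨hx.1, hx.2.1⟩
      _ = 2 * (U.card * ∑ p ∈ U, G p) := by
          simp only [Finset.sum_add_distrib, Finset.sum_product, Finset.sum_const, smul_eq_mul,
            ← Finset.mul_sum]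
          ring
      _ ≤ _ := by gcongr
  omega

lemma exists_slot (U U0 : Finset ℕ) (hU0 : ∀ p ∈ U0, p.Prime) {l : List (ℕ × ℕ)} (hl : Valid U0 l)
    (hU : U ⊆ U0) (hdisj : Disjoint U (slotPrimes l)) (L : ℕ) {H W : ℕ}
    (hH : ∀ a ∈ prods l, a ≤ H) (hW : 2 ^ L * H < 2 ^ W) (hK : 2 ≤ U.card) :
    ∃ x : ℕ × ℕ, Valid U0 (x :: l) ∧ ∀ lam < L,
      nc (prods (x :: l)) (2 ^ (lam + 1)) ≤
        (2 * (25 / 64 : ℝ) ^ 2 ^ (lam + 1)
          + (25 / 16 : ℝ) ^ 2 ^ (lam + 1) * ((L * W : ℕ) : ℝ) / ((U.card : ℝ) - 1))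
            * nc (prods l) (2 ^ (lam + 1))
        + (25 / 16 : ℝ) ^ 2 ^ (lam + 1) * nc (prods l) (2 ^ lam) ^ 2 := by
  classical
  set A := prods l with hAdef
  have hcard : A.card = 2 ^ l.length := card_prods hU0 hl
  have hAne : A.Nonempty := Finset.card_pos.1 (by rw [hcard]; positivity)
  set K := U.card with hKdef
  have hr : ∀ lam, (0 : ℝ) < rcoll A (2 ^ (lam + 1)) := fun lam => by exact_mod_cast rcoll_pos hAne _
  set Φ : ℕ × ℕ → ℝ := fun x => ∑ lam ∈ Finset.range L,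
    (crossNz A (2 ^ lam) x.1 x.2 : ℝ) / (rcoll A (2 ^ (lam + 1)) : ℝ) with hΦ
  have hne : U.offDiag.Nonempty := by
    obtain ⟨a, ha, b, hb, hab⟩ := Finset.one_lt_card.1 (show 1 < U.card by omega)
    exact ⟨(a, b), Finset.mem_offDiag.2 ⟨ha, hb, hab⟩⟩
  obtain ⟨x, hx, hmin⟩ := Finset.exists_min_image U.offDiag Φ hne
  rw [Finset.mem_offDiag] at hx
  have hx1 : x.1 ∉ slotPrimes l := Finset.disjoint_left.1 hdisj hx.1
  have hx2 : x.2 ∉ slotPrimes l := Finset.disjoint_left.1 hdisj hx.2.1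
  have hv : Valid U0 (x :: l) := ⟨hU hx.1, hU hx.2.1, hx.2.2, hx1, hx2, hl⟩
  refine ⟨x, hv, fun lam hlam => ?_⟩
  have hK1 : (0 : ℝ) < (K : ℝ) - 1 := by
    have : (2 : ℝ) ≤ (K : ℝ) := by exact_mod_cast hK
    linarith
  have hΦx : Φ x ≤ ((L * W : ℕ) : ℝ) / ((K : ℝ) - 1) := by
    have h1 : (U.offDiag.card : ℝ) * Φ x ≤ ∑ y ∈ U.offDiag, Φ y := by
      rw [← nsmul_eq_mul]; exact Finset.card_nsmul_le_sum _ _ _ hmin
    have h2 : ∑ y ∈ U.offDiag, Φ y ≤ (L : ℝ) * ((K : ℝ) * W) := by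
      rw [hΦ, Finset.sum_comm]
      refine (Finset.sum_le_card_nsmul _ _ ((K : ℝ) * W) fun lam' hl' => ?_).trans_eq (by simp)
      rw [← Finset.sum_div, div_le_iff₀ (hr lam')]
      have hWlam : 2 ^ lam' * H < 2 ^ W := lt_of_le_of_lt (Nat.mul_le_mul_right _
        (Nat.pow_le_pow_right two_pos (Finset.mem_range.1 hl').le)) hW
      have := sum_crossNz_le A U (fun p hp => hU0 p (hU hp)) (2 ^ lam') hH hWlam
      rw [show 2 * 2 ^ lam' = 2 ^ (lam' + 1) by rw [pow_succ]; ring, ← mul_assoc] at this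
      exact_mod_cast this
    have h3 : (U.offDiag.card : ℝ) = (K : ℝ) * ((K : ℝ) - 1) := by
      rw [Finset.offDiag_card, Nat.cast_sub (Nat.le_mul_self _)]; push_cast; ring
    rw [h3] at h1
    rw [le_div_iff₀ hK1]
    have hK0 : (0 : ℝ) < (K : ℝ) := by linarith
    refine le_of_mul_le_mul_left ?_ hK0
    push_cast
    linarith
  set i := 2 ^ lam with hi
  set j := 2 ^ (lam + 1) with hj
  have hji : j = 2 * i := by rw [hj, hi, pow_succ]; ring
  have hcross : (crossNz A i x.1 x.2 : ℝ) ≤ ((L * W : ℕ) : ℝ) / ((K : ℝ) - 1) * rcoll A j := by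
    rw [← div_le_iff₀ (hr lam)]
    refine le_trans ?_ hΦx
    exact Finset.single_le_sum (f := fun lam => (crossNz A (2 ^ lam) x.1 x.2 : ℝ) / (rcoll A (2 ^ (lam + 1)) : ℝ))
      (fun _ _ => by positivity) (Finset.mem_range.2 hlam)
  obtain ⟨Q, hQle, hQp⟩ := Nat.exists_infinite_primes
    ((x.1 + x.2) * (i * H) + j * ((x.1 + x.2) * H) + x.1 + x.2 + j * H + 1)
  have hp1 : x.1.Coprime Q := (Nat.coprime_primes (hU0 _ (hU hx.1)) hQp).2 (by omega)
  have hp2 : x.2.Coprime Q := (Nat.coprime_primes (hU0 _ (hU hx.2.1)) hQp).2 (by omega)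
  have hH' : ∀ a ∈ prods (x :: l), a ≤ (x.1 + x.2) * H := by
    intro a ha
    simp only [prods, Finset.mem_union, Finset.mem_image] at ha
    rcases ha with ⟨y, hy, rfl⟩ | ⟨y, hy, rfl⟩ <;>
      exact Nat.mul_le_mul (by omega) (hH y hy)
  have hnew := sum_moment (prods (x :: l)) j hH' (Q := Q) (by omega)
  have hold := sum_moment A j hH (Q := Q) (by omega)
  have hcr := sum_cross A i x.1 x.2 hH (Q := Q) (by omega)
  have hQpos : (0 : ℝ) < Q := by exact_mod_cast hQp.pos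
  have hkey : (rcoll (prods (x :: l)) j : ℝ) ≤
      (4 : ℝ) ^ j * ((25 / 16 : ℝ) ^ j * ((rcoll A i : ℝ) ^ 2 + crossNz A i x.1 x.2)
        + (25 / 64 : ℝ) ^ j * (2 * rcoll A j)) := by
    refine le_of_mul_le_mul_left ?_ hQpos
    rw [← hnew]
    have hpt : ∀ φ : ℝ, ‖expS (prods (x :: l)) φ‖ ^ (2 * j) ≤
        (4 : ℝ) ^ j * ((25 / 16 : ℝ) ^ j *
          (‖expS A ((x.1 : ℝ) * φ)‖ ^ j * ‖expS A ((x.2 : ℝ) * φ)‖ ^ j)
        + (25 / 64 : ℝ) ^ j *
          (‖expS A ((x.1 : ℝ) * φ)‖ ^ (2 * j) + ‖expS A ((x.2 : ℝ) * φ)‖ ^ (2 * j))) := by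
      intro φ
      rw [expS_cons hU0 hv]
      set a := ‖expS A ((x.1 : ℝ) * φ)‖
      set b := ‖expS A ((x.2 : ℝ) * φ)‖
      have h1 := pointwise a b (norm_nonneg _) (norm_nonneg _) j
      have h2 : (a + b) ^ (2 * j) = (4 : ℝ) ^ j * ((a + b) / 2) ^ (2 * j) := by
        rw [div_pow, pow_mul (2 : ℝ)]; norm_num; field_simp
      calc _ ≤ (a + b) ^ (2 * j) := pow_le_pow_left₀ (norm_nonneg _) (norm_add_le _ _) _
        _ ≤ _ := by rw [h2]; gcongr
    refine (Finset.sum_le_sum fun h _ => hpt _).trans ?_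
    rw [← Finset.mul_sum, Finset.sum_add_distrib, ← Finset.mul_sum, ← Finset.mul_sum,
      Finset.sum_add_distrib, sum_moment_dilate A _ hQp.pos hp1, sum_moment_dilate A _ hQp.pos hp2,
      hold]
    rw [hji, hcr]
    have hc : (((tup A i ×ˢ tup A i).filter
        (fun q => (x.1 : ℤ) * tval q.1 + (x.2 : ℤ) * tval q.2 = 0)).card : ℝ)
        ≤ (rcoll A i : ℝ) ^ 2 + crossNz A i x.1 x.2 := by
      rw [sq]; exact_mod_cast cross_le A i x.1 x.2 (hU0 _ (hU hx.2.1)).ne_zero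
    nlinarith [mul_le_mul_of_nonneg_left hc
      (show (0 : ℝ) ≤ (Q : ℝ) * (4 : ℝ) ^ (2 * i) * (25 / 16 : ℝ) ^ (2 * i) by positivity)]
  have hA0 : (0 : ℝ) < (A.card : ℝ) := by exact_mod_cast hAne.card_pos
  have hcardnew : ((prods (x :: l)).card : ℝ) = 2 * (A.card : ℝ) := by
    rw [card_prods hU0 hv, hcard, List.length_cons]; push_cast; ring
  rw [nc, hcardnew, mul_pow, pow_mul (2 : ℝ)]
  norm_num only
  rw [div_le_iff₀ (by positivity)]
  refine hkey.trans ?_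
  have e1 : nc A j * (A.card : ℝ) ^ (2 * j) = rcoll A j := div_mul_cancel₀ _ (by positivity)
  have e2 : nc A i ^ 2 * (A.card : ℝ) ^ (2 * j) = (rcoll A i : ℝ) ^ 2 := by
    rw [show (A.card : ℝ) ^ (2 * j) = ((A.card : ℝ) ^ (2 * i)) ^ 2 by rw [← pow_mul, hji]; ring_nf,
      ← mul_pow, nc, div_mul_cancel₀ _ (by positivity)]
  have h5 := mul_le_mul_of_nonneg_left hcross
    (show (0 : ℝ) ≤ (4 : ℝ) ^ j * (25 / 16 : ℝ) ^ j by positivity)
  calc _ ≤ (4 : ℝ) ^ j * ((25 / 16 : ℝ) ^ j * ((rcoll A i : ℝ) ^ 2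
          + ((L * W : ℕ) : ℝ) / ((K : ℝ) - 1) * rcoll A j) + (25 / 64 : ℝ) ^ j * (2 * rcoll A j)) := by
        nlinarith
    _ = _ := by rw [← e1, ← e2]; ring

/-- The collision bound for every suffix of a greedily chosen slot list. -/
theorem exists_pool (U0 : Finset ℕ) (hU0 : ∀ p ∈ U0, p.Prime) {e L n : ℕ}
    (he : ∀ p ∈ U0, p ≤ 2 ^ e) (hK : 2 * n + 2 ≤ U0.card)
    (hδ : 4 * 2 ^ 2 ^ L * (L * (L + e * n + 1)) ≤ U0.card - 2 * n - 1) :
    ∃ l : List (ℕ × ℕ), l.length = n ∧ Valid U0 l ∧ ∀ s, s <:+ l → ∀ lam ≤ L,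
      nc (prods s) (2 ^ lam) ≤ (4 / 5 : ℝ) ^ (2 ^ lam * (s.length - 7 * lam)) := by
  classical
  suffices H : ∀ t ≤ n, ∃ l : List (ℕ × ℕ), l.length = t ∧ Valid U0 l ∧ ∀ s, s <:+ l → ∀ lam ≤ L,
      nc (prods s) (2 ^ lam) ≤ (4 / 5 : ℝ) ^ (2 ^ lam * (s.length - 7 * lam)) from H n le_rfl
  intro t ht
  induction t with
  | zero =>
    refine ⟨[], rfl, trivial, fun s hs lam _ => ?_⟩
    rw [List.suffix_nil.1 hs]
    simpa using nc_le_one _ _
  | succ t ih =>
    obtain ⟨l, hlen, hv, hl⟩ := ih (by omega)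
    set U := U0 \ slotPrimes l with hUdef
    have hUc : U.card = U0.card - 2 * t := by
      rw [hUdef, Finset.card_sdiff_of_subset (slotPrimes_subset hv), card_slotPrimes hv, hlen]
    have hH : ∀ a ∈ prods l, a ≤ 2 ^ (e * n) := by
      intro a ha
      have := (prods_bounds (lo := 0) (hi := 2 ^ e) (fun p hp => ⟨Nat.zero_le p, he p hp⟩) hv a ha).2
      rw [← pow_mul, hlen] at this
      exact this.trans (Nat.pow_le_pow_right two_pos (Nat.mul_le_mul_left _ (by omega)))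
    obtain ⟨x, hxv, hx⟩ := exists_slot U U0 hU0 hv Finset.sdiff_subset Finset.sdiff_disjoint L hH
      (show 2 ^ L * 2 ^ (e * n) < 2 ^ (L + e * n + 1) by rw [← pow_add]; exact Nat.pow_lt_pow_right one_lt_two (by omega))
      (by omega)
    refine ⟨x :: l, by simp [hlen], hxv, fun s hs lam hlam => ?_⟩
    rcases List.suffix_cons_iff.1 hs with rfl | hs'
    swap
    · exact hl s hs' lam hlam
    cases lam with
    | zero =>
      have hc := card_prods hU0 hxv
      rw [nc, pow_zero, rcoll_one, hc, one_mul, Nat.mul_zero, Nat.sub_zero]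
      push_cast
      rw [sq, ← div_div, div_self (by positivity), one_div, ← inv_pow]
      exact pow_le_pow_left₀ (by norm_num) (by norm_num) _
    | succ lam =>
      have hlen' : (x :: l).length = t + 1 := by simp [hlen]
      rw [hlen']
      rcases Nat.lt_or_ge t (7 * (lam + 1)) with hsmall | hbig
      · rw [show t + 1 - 7 * (lam + 1) = 0 by omega, mul_zero, pow_zero]; exact nc_le_one _ _
      set j := 2 ^ (lam + 1) with hj
      have hcj := hl l (List.suffix_refl l) (lam + 1) hlam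
      have hci := hl l (List.suffix_refl l) lam (by omega)
      rw [hlen, ← hj] at hcj
      rw [hlen] at hci
      refine (hx lam (by omega)).trans ?_
      rw [← hj]
      set a := t - 7 * (lam + 1) with ha
      rw [show t + 1 - 7 * (lam + 1) = a + 1 by omega, show j * (a + 1) = j * a + j by ring, pow_add]
      have hj2 : 2 ≤ j := by rw [hj]; exact Nat.le_self_pow (by omega) 2
      have hB : 2 * (25 / 64 : ℝ) ^ j ≤ 1 / 2 * (4 / 5 : ℝ) ^ j := by
        have h1 : (25 / 64 : ℝ) ^ j = (125 / 256 : ℝ) ^ j * (4 / 5 : ℝ) ^ j := by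
          rw [← mul_pow]; norm_num
        have h2 : (125 / 256 : ℝ) ^ j ≤ (125 / 256 : ℝ) ^ 2 :=
          pow_le_pow_of_le_one (by norm_num) (by norm_num) hj2
        have : (0 : ℝ) < (4 / 5 : ℝ) ^ j := by positivity
        rw [h1]; nlinarith
      have hKpos : (0 : ℝ) < (U.card : ℝ) - 1 := by
        have : (2 : ℝ) ≤ (U.card : ℝ) := by exact_mod_cast (show 2 ≤ U.card by omega)
        linarith
      have hD : (25 / 16 : ℝ) ^ j * ((L * (L + e * n + 1) : ℕ) : ℝ) / ((U.card : ℝ) - 1)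
          ≤ 1 / 4 * (4 / 5 : ℝ) ^ j := by
        rw [div_le_iff₀ hKpos]
        have h1 : (25 / 16 : ℝ) ^ j = (125 / 64 : ℝ) ^ j * (4 / 5 : ℝ) ^ j := by
          rw [← mul_pow]; norm_num
        have h2 : (125 / 64 : ℝ) ^ j ≤ (2 : ℝ) ^ 2 ^ L :=
          (pow_le_pow_left₀ (by norm_num) (by norm_num) j).trans
            (pow_le_pow_right₀ (by norm_num) (Nat.pow_le_pow_right two_pos hlam))
        have h3 : 4 * ((2 : ℝ) ^ 2 ^ L) * ((L * (L + e * n + 1) : ℕ) : ℝ) ≤ (U.card : ℝ) - 1 := by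
          have : ((4 * 2 ^ 2 ^ L * (L * (L + e * n + 1)) + 1 : ℕ) : ℝ) ≤ (U.card : ℝ) := by
            exact_mod_cast (show 4 * 2 ^ 2 ^ L * (L * (L + e * n + 1)) + 1 ≤ U.card by omega)
          push_cast at this ⊢
          linarith
        rw [h1]
        have h4 : (0 : ℝ) < (4 / 5 : ℝ) ^ j := by positivity
        have h5 := mul_le_mul_of_nonneg_right h2
          (show (0 : ℝ) ≤ ((L * (L + e * n + 1) : ℕ) : ℝ) by positivity)
        nlinarith
      have hC : (25 / 16 : ℝ) ^ j * nc (prods l) (2 ^ lam) ^ 2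
          ≤ 1 / 4 * ((4 / 5 : ℝ) ^ (j * a) * (4 / 5 : ℝ) ^ j) := by
        have h1 : nc (prods l) (2 ^ lam) ^ 2 ≤ (4 / 5 : ℝ) ^ (j * (a + 7)) := by
          refine (pow_le_pow_left₀ (nc_nonneg _ _) hci 2).trans_eq ?_
          rw [← pow_mul, show t - 7 * lam = a + 7 by omega, hj, pow_succ]; ring_nf
        have h2 : (25 / 16 : ℝ) ^ j * (4 / 5 : ℝ) ^ (j * 6) ≤ 1 / 4 := by
          rw [mul_comm j 6, pow_mul, ← mul_pow]
          refine (pow_le_pow_of_le_one (by positivity) (by norm_num) hj2).trans ?_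
          norm_num
        calc (25 / 16 : ℝ) ^ j * nc (prods l) (2 ^ lam) ^ 2
            ≤ (25 / 16 : ℝ) ^ j * (4 / 5 : ℝ) ^ (j * (a + 7)) := by gcongr
          _ = ((25 / 16 : ℝ) ^ j * (4 / 5 : ℝ) ^ (j * 6)) * ((4 / 5 : ℝ) ^ (j * a) * (4 / 5 : ℝ) ^ j) := by ring
          _ ≤ _ := by gcongr
      have hn := nc_nonneg (prods l) j
      have hM := mul_le_mul (add_le_add hB hD) hcj hn (by positivity)
      nlinarith

end Vale.Agent.P012.Full
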